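import Vale.Agent.P134A.Slab

/-!
# P134: averaged energy of stable solutions in two further variables, and of monotone solutions
-/

namespace Vale.Agent.P134A

open MeasureTheory Filter Topology Finset Vale.Agent.P134 Vale.Agent.P134R

variable {k : ℕ}

theorem ball_cut {n : ℕ} {B : ℝ} (hB : ∀ t, |deriv th t| ≤ B ∧ (deriv th t ≠ 0 → 1 ≤ |t| ∧ |t| ≤ 4))
    {V : ℝ} (hV : ∀ R : ℝ, 0 ≤ R → (volume : Measure (Sp n)).real (Metric.closedBall 0 R) ≤ V * R ^ n)
    (hB0 : 0 ≤ B) {ρ : ℝ} (hρ : 0 < ρ) :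
    ContDiff ℝ 1 (fun x : Sp n => sc ρ (nsq x)) ∧ HasCompactSupport (fun x : Sp n => sc ρ (nsq x)) ∧
      (∀ x : Sp n, 0 ≤ sc ρ (nsq x)) ∧ (∀ x : Sp n, nsq x ≤ ρ ^ 2 → sc ρ (nsq x) = 1) ∧
      ∫ x, ∑ q, |pd q (fun x : Sp n => sc ρ (nsq x)) x| ≤ n * (4 * B) / ρ * (V * (2 * ρ) ^ n) := by
  set ζ : Sp n → ℝ := fun x => sc ρ (nsq x) with hζ
  have hd : ContDiff ℝ 1 ζ := (sc_contDiff ρ).comp nsq_contDiff
  have hz : ∀ x : Sp n, 2 * ρ < ‖x‖ → ζ x = 0 := fun x hx =>
    (sc_facts hρ (nsq_nonneg x)).2.2.2 (by rw [nsq_eq]; nlinarith [norm_nonneg x])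
  refine ⟨hd, HasCompactSupport.intro (isCompact_closedBall (0 : Sp n) (2 * ρ)) fun x hx =>
    hz x (by simpa using hx), fun x => (sc_facts hρ (nsq_nonneg x)).1,
    fun x hx => (sc_facts hρ (nsq_nonneg x)).2.2.1 hx, ?_⟩
  have hpt : ∀ x, ∑ q, |pd q ζ x| ≤ (Metric.closedBall (0 : Sp n) (2 * ρ)).indicator
      (fun _ => (n : ℝ) * (4 * B) / ρ) x := by
    intro x
    have hdq : ∀ q, pd q ζ x = sc' ρ (nsq x) * (2 * x q) := fun q => by
      rw [← pd_nsq]
      exact pd_comp (sc_hasDerivAt ρ (nsq x)) (nsq_contDiff.differentiable one_ne_zero x) q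
    obtain ⟨c1, c2⟩ := sc'_bound hρ (nsq_nonneg x) hB
    by_cases hx : x ∈ Metric.closedBall (0 : Sp n) (2 * ρ)
    · rw [Set.indicator_of_mem hx]
      rw [mem_closedBall_zero_iff] at hx
      refine (Finset.sum_le_sum (g := fun _ => 4 * B / ρ) fun q _ => ?_).trans
        (le_of_eq (by simp; ring))
      rw [hdq, abs_mul, abs_mul, abs_two]
      calc |sc' ρ (nsq x)| * (2 * |x q|) ≤ B / ρ ^ 2 * (2 * (2 * ρ)) :=
            mul_le_mul c1 (mul_le_mul_of_nonneg_left
              ((PiLp.norm_apply_le x q).trans hx) two_pos.le) (by positivity) (by positivity)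
        _ = _ := by field_simp; ring
    · rw [Set.indicator_of_notMem hx]
      rw [mem_closedBall_zero_iff, not_le] at hx
      have : sc' ρ (nsq x) = 0 := by
        by_contra hne
        have := (c2 hne).2
        rw [nsq_eq] at this
        nlinarith [norm_nonneg x]
      simp [hdq, this]
  refine (integral_mono_of_nonneg (Eventually.of_forall fun x =>
    Finset.sum_nonneg fun q _ => abs_nonneg _)
    (((continuous_const : Continuous fun _ : Sp n => (n : ℝ) * (4 * B) / ρ
      ).continuousOn.integrableOn_compact (isCompact_closedBall _ _)).integrable_indicator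
      measurableSet_closedBall) (Eventually.of_forall hpt)).trans ?_
  rw [integral_indicator measurableSet_closedBall, setIntegral_const, smul_eq_mul, mul_comm]
  exact mul_le_mul_of_nonneg_left (hV _ (by linarith)) (by positivity)

/-- Averaged energy of stable solutions with two further variables: one interface. -/
theorem stable_energy (k : ℕ) : ∃ C : ℝ, 0 ≤ C ∧ ∀ T : ℝ, 1 ≤ T → ∀ᶠ L in atTop,
    ∀ w : Sp (k + 2) → ℝ, Cls w →
      ∫ x, (box (k := k) (m := 2) L T).indicator (eden w) x ≤ C * L ^ k * T := by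
  obtain ⟨B, hB0, hB⟩ := exists_th_bound
  obtain ⟨V, hV0, hV⟩ := ball_volume (k + 2)
  obtain ⟨L1, hL10, hL1⟩ := reg_bounds_unif (k + 2)
  set Cg : ℝ := (k + 2 : ℕ) * (4 * B) * (V * (2 : ℝ) ^ (k + 2) * ((k : ℝ) + 1) ^ (k + 1)) with hCg
  have hCg0 : 0 ≤ Cg := by positivity
  refine ⟨7 ^ k * (Cg + 1) + 1, by positivity, fun T hT => ?_⟩
  have hT0 : 0 < T := by linarith
  have hρ : 0 < ((k : ℝ) + 1) * T := by positivity
  obtain ⟨hζd, hζc, hζ0, hζ1, hζg⟩ := ball_cut hB hV hB0 hρ
  obtain ⟨R, M, hR, hM, hwin⟩ := window hζd hζc hζ0 one_pos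
  set q : ℝ := ((⌈2 * R / T⌉₊ : ℝ) + 2) ^ k with hq
  have hq0 : 0 ≤ q := by positivity
  set c1 : ℝ := 4 * ((k : ℝ) + 1) with hc1
  have hc10 : 0 < c1 := by positivity
  have hE : ∀ S : ℝ, 1 ≤ S → ∀ᶠ L in atTop, ∀ w : Sp (k + 2) → ℝ, Cls w →
      ∫ x, (box (k := k) (m := 2) L S).indicator (gsq Finset.univ w) x
        ≤ ((k + 2 : ℕ) * L1 ^ 2 * 2 ^ k * 4) * L ^ k * S ^ 2 := by
    intro S hS
    filter_upwards [eventually_ge_atTop (0 : ℝ)] with L hL w hw
    refine (integral_mono (box_integrable (gsq_contDiff hw.sol.reg _).continuous _ _)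
      ((box_integrable (f := fun _ => (1 : ℝ)) continuous_const L S).const_mul
        (((k + 2 : ℕ) : ℝ) * L1 ^ 2)) fun x => ?_).trans ?_
    · by_cases hx : x ∈ box L S
      · simpa [Set.indicator_of_mem hx] using
          gsq_univ_bound w (hL1 w hw.sol hw.bdd).1 x
      · simp [Set.indicator_of_notMem hx]
    · rw [integral_const_mul]
      refine (mul_le_mul_of_nonneg_left (box_volume hL (by linarith)) (by positivity)).trans
        (le_of_eq ?_)
      rw [mul_pow, mul_pow]
      ring
  have hd := defect_slab (P := Cls) (fun _ h => h) (by positivity) hE hR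
    (show 0 < 1 / (M * q * c1 ^ k + 1) by positivity)
  filter_upwards [(Tendsto.const_mul_atTop hc10 tendsto_id).eventually hd,
    eventually_ge_atTop T, eventually_ge_atTop R] with L hdL hLT hLR w hw
  simp only [id_eq] at hdL
  have hL0 : 0 < L := by linarith
  set N : ℕ := ⌈L / T⌉₊ + 1 with hN
  have hN1 : L / T + 1 ≤ N := by
    rw [hN]; push_cast; linarith [Nat.le_ceil (L / T)]
  have hN2 : (N : ℝ) ≤ L / T + 2 := by
    rw [hN]; push_cast; linarith [Nat.ceil_lt_add_one (show 0 ≤ L / T by positivity)]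
  have hNT : (N : ℝ) * T ≤ 3 * L := by
    have := mul_le_mul_of_nonneg_right hN2 hT0.le
    rw [add_mul, div_mul_cancel₀ _ hT0.ne'] at this
    linarith
  set ζ : Sp (k + 2) → ℝ := fun x => sc (((k : ℝ) + 1) * T) (nsq x) with hζ
  have hec : Continuous (eden w) := eden_continuous hw.sol.reg
  have hi : ∀ j : Fin k → ℤ, Integrable fun x => ζ (x - gp T j) * eden w x := fun j =>
    ((hζd.continuous.comp (continuous_id.sub continuous_const)).mul
      hec).integrable_of_hasCompactSupport
      ((hζc.comp_homeomorph (Homeomorph.subRight (gp T j))).mul_right)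
  have h1 : ∫ x, (box (k := k) (m := 2) L T).indicator (eden w) x
      ≤ ∑ j ∈ grid k N, ∫ x, ζ (x - gp T j) * eden w x := by
    rw [← integral_finsetSum _ fun j _ => hi j]
    refine integral_mono (box_integrable hec _ _) (integrable_finsetSum _ fun j _ => hi j) fun x => ?_
    have h0 : ∀ j ∈ grid k N, 0 ≤ ζ (x - gp T j) * eden w x := fun j _ =>
      mul_nonneg (hζ0 _) (eden_nonneg w x)
    by_cases hx : x ∈ box L T
    · rw [Set.indicator_of_mem hx]
      obtain ⟨j, hj, hjn⟩ := grid_cover hT0 hN1 hL0.le hx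
      refine le_trans ?_ (Finset.single_le_sum h0 hj)
      rw [hζ]
      simp only [hζ1 _ hjn, one_mul, le_refl]
    · rw [Set.indicator_of_notMem hx]
      exact Finset.sum_nonneg h0
  have hdc : Continuous (df w) := df_continuous hw.sol.reg
  have hb : ∀ j : Fin k → ℤ, Integrable ((Metric.closedBall (0 : Sp (k + 2)) R).indicator
      fun y => df w (y + gp T j)) := fun j =>
    ((hdc.comp (continuous_id.add continuous_const)).continuousOn.integrableOn_compact
      (isCompact_closedBall _ _)).integrable_indicator measurableSet_closedBall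
  have h2 : ∀ j, ∫ x, ζ (x - gp T j) * eden w x ≤ (Cg * T ^ (k + 1) + 1)
      + M * ∫ x, (Metric.closedBall (0 : Sp (k + 2)) R).indicator (fun y => df w (y + gp T j))
          (x - gp T j) := by
    intro j
    have := hwin _ (hw.shift (gp T j))
    have e1 : ∫ x, ζ x * eden (fun y => w (y + gp T j)) x = ∫ x, ζ (x - gp T j) * eden w x := by
      simp only [eden_shift]
      rw [← integral_add_right_eq_self (μ := volume) (fun x => ζ (x - gp T j) * eden w x) (gp T j)]
      simp only [add_sub_cancel_right]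
    have e2 : ∫ x, (Metric.closedBall (0 : Sp (k + 2)) R).indicator (df fun y => w (y + gp T j)) x
        = ∫ x, (Metric.closedBall (0 : Sp (k + 2)) R).indicator (fun y => df w (y + gp T j))
          (x - gp T j) := by
      rw [integral_sub_right_eq_self (μ := volume)
        ((Metric.closedBall (0 : Sp (k + 2)) R).indicator fun y => df w (y + gp T j)) (gp T j)]
      congr 1
      funext x
      exact congrArg (fun f => (Metric.closedBall (0 : Sp (k + 2)) R).indicator f x)
        (funext fun y => df_shift w (gp T j) y)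
    rw [e1, e2] at this
    refine this.trans (add_le_add (add_le_add (hζg.trans (le_of_eq ?_)) le_rfl) le_rfl)
    rw [hCg, mul_pow, mul_pow, pow_succ ((k : ℝ) + 1) (k + 1), pow_succ T (k + 1)]
    field_simp
  have h3 : ∑ j ∈ grid k N, ∫ x, (Metric.closedBall (0 : Sp (k + 2)) R).indicator
      (fun y => df w (y + gp T j)) (x - gp T j) ≤ q * (1 / (M * q * c1 ^ k + 1) * (c1 * L) ^ k) := by
    rw [← integral_finsetSum _ fun j _ => (hb j).comp_sub_right (gp T j)]
    refine (integral_mono (integrable_finsetSum _ fun j _ => (hb j).comp_sub_right (gp T j))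
      ((box_integrable hdc (c1 * L) R).const_mul q) fun x => ?_).trans ?_
    · refine (grid_overlap hT0 hR (df_nonneg w) x).trans (mul_le_mul_of_nonneg_left ?_ hq0)
      refine Set.indicator_le_indicator_of_subset (box_subset (by positivity) hR ?_ le_rfl)
        (df_nonneg w) x
      rw [hc1]
      nlinarith [show (0 : ℝ) ≤ k from Nat.cast_nonneg k]
    · rw [integral_const_mul]
      exact mul_le_mul_of_nonneg_left (hdL w hw) hq0
  refine h1.trans ((Finset.sum_le_sum fun j _ => h2 j).trans ?_)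
  rw [Finset.sum_add_distrib, ← Finset.mul_sum, Finset.sum_const, nsmul_eq_mul, grid_card]
  refine (add_le_add_right (mul_le_mul_of_nonneg_left h3 hM) _).trans ?_
  have h4 : (2 * (N : ℝ) + 1) * T ≤ 7 * L := by linarith
  have h5 : (2 * (N : ℝ) + 1) ^ k * (Cg * T ^ (k + 1) + 1) ≤ 7 ^ k * (Cg + 1) * (L ^ k * T) := by
    have hT1 : 1 ≤ T ^ (k + 1) := one_le_pow₀ hT
    calc (2 * (N : ℝ) + 1) ^ k * (Cg * T ^ (k + 1) + 1)
        ≤ (2 * (N : ℝ) + 1) ^ k * ((Cg + 1) * T ^ (k + 1)) :=
          mul_le_mul_of_nonneg_left (by linarith) (by positivity)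
      _ = ((2 * (N : ℝ) + 1) * T) ^ k * (Cg + 1) * T := by rw [mul_pow, pow_succ]; ring
      _ ≤ (7 * L) ^ k * (Cg + 1) * T := by gcongr
      _ = _ := by rw [mul_pow]; ring
  have h6 : M * (q * (1 / (M * q * c1 ^ k + 1) * (c1 * L) ^ k)) ≤ 1 * (L ^ k * T) := by
    have e : M * (q * (1 / (M * q * c1 ^ k + 1) * (c1 * L) ^ k))
        = M * q * c1 ^ k / (M * q * c1 ^ k + 1) * L ^ k := by
      clear_value c1
      rw [mul_pow]
      ring
    rw [e]
    refine mul_le_mul ?_ (le_mul_of_one_le_right (by positivity) hT) (by positivity) zero_le_one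
    rw [div_le_one (by positivity)]
    linarith
  linarith

/-- Solutions on `ℝ^(k+3)` increasing in the last variable. -/
def Mon (u : Sp (k + (2 + 1)) → ℝ) : Prop :=
  IsSol ac u ∧ (∀ x, |u x| ≤ 1) ∧ ∀ x, 0 < pd (Fin.natAdd k (Fin.last 2)) u x

theorem Mon.cls {u : Sp (k + (2 + 1)) → ℝ} (h : Mon u) : Cls u :=
  ⟨h.1, h.2.1, stable_of_pos h.1 h.2.2⟩

theorem Mon.shift {u : Sp (k + (2 + 1)) → ℝ} (h : Mon u) (a : Sp (k + (2 + 1))) :
    Mon fun y => u (y + a) :=
  ⟨sol_shift h.1 a, fun _ => h.2.1 _, fun x => by rw [pd_shift]; exact h.2.2 _⟩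

/-- Averaged energy of monotone solutions. -/
theorem mono_energy (k : ℕ) : ∃ C : ℝ, 0 ≤ C ∧ ∀ T : ℝ, 1 ≤ T → ∀ᶠ L in atTop,
    ∀ u : Sp (k + (2 + 1)) → ℝ, Mon u →
      ∫ x, (box (k := k) (m := 2 + 1) L T).indicator (gsq Finset.univ u) x ≤ C * L ^ k * T ^ 2 := by
  obtain ⟨B, hB0, hB⟩ := exists_th_bound
  obtain ⟨L1, hL10, hL1⟩ := reg_bounds_unif (k + (2 + 1))
  obtain ⟨Cw, hCw0, hCw⟩ := stable_energy k
  refine ⟨2 * (Cw * 2 ^ k * 2 * 4
      + 2 * L1 * (((k + (2 + 1) : ℕ) : ℝ) * (4 * B) * (4 ^ k * 4 ^ 3))),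
    by positivity, fun T hT => ?_⟩
  have hT0 : 0 < T := by linarith
  filter_upwards [(Tendsto.const_mul_atTop (two_pos (α := ℝ)) tendsto_id).eventually
    (hCw (2 * T) (by linarith)), eventually_ge_atTop T] with L hwL hLT u hu
  simp only [id_eq] at hwL
  obtain ⟨hsol, hb, hpos⟩ := hu
  have hL0 : 0 < L := by linarith
  set l : Fin (k + 2 + 1) := (Fin.natAdd k (Fin.last 2) : Fin (k + (2 + 1))) with hl
  obtain ⟨v, hv, hvb, hvs, hv0, hlim, hlim1⟩ := profile hsol hb _ hpos
  obtain ⟨hw, hws, hwp, -⟩ := descend (n := k + 2) hv hvs l hv0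
  set w : Sp (k + 2) → ℝ := fun y => v (embL (n := k + 2) l y) with hwdef
  have hsl : l = Fin.last (k + 2) := Fin.ext (by simp [hl])
  have hc1 : ∀ i : Fin k, l.succAbove (Fin.castAdd 2 i) = Fin.castAdd (2 + 1) i := fun i => by
    rw [hsl, Fin.succAbove_last]
    exact Fin.ext rfl
  have hc2 : ∀ j : Fin 2, l.succAbove (Fin.natAdd k j) = Fin.natAdd k j.castSucc := fun j => by
    rw [hsl, Fin.succAbove_last]
    exact Fin.ext rfl
  have hvd := hv.reg.differentiable two_ne_zero
  have hve : ∀ x : Sp (k + (2 + 1)), eden v x = eden w (tlL (n := k + 2) l x) := by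
    intro x
    have h0 : v x = w (tlL (n := k + 2) l x) := indep l hvd hv0 x
    have h1 : ∀ i, pd i w (tlL (n := k + 2) l x) = pd (l.succAbove i) v x := by
      intro i
      rw [hwp]
      have hd1 : Differentiable ℝ (pd (l.succAbove i) v) :=
        (pd_contDiff hv.reg _).differentiable one_ne_zero
      refine (indep l hd1 (fun y => ?_) x).symm
      rw [pd_comm hv.reg, show pd l v = fun _ => 0 from funext hv0, pd]
      simp
    have h2 : gsq Finset.univ v x = gsq Finset.univ w (tlL (n := k + 2) l x) := by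
      show ∑ i : Fin (k + 2 + 1), pd i v x ^ 2 = _
      rw [Fin.sum_univ_succAbove _ l]
      simp [gsq, h1, show pd l v x = 0 from hv0 x]
    simp only [eden]
    rw [h2, h0]
  set ζ : Sp (k + (2 + 1)) → ℝ := tst (sc L) (sc T) with hζ
  have hζd : ContDiff ℝ 1 ζ :=
    tst_contDiff (fun r _ => (sc_contDiff _).contDiffAt) fun r _ => (sc_contDiff _).contDiffAt
  have hζc : HasCompactSupport ζ := tst_compact (R := 4 * L ^ 2 + 4 * T ^ 2)
    (fun r hr => (sc_facts hL0 (by nlinarith)).2.2.2 (by nlinarith))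
    (fun r hr => (sc_facts hT0 (by nlinarith)).2.2.2 (by nlinarith))
  have hζ0 : ∀ x, 0 ≤ ζ x := fun x => mul_nonneg (sc_facts hL0 (rsq_nonneg x)).1
    (sc_facts hT0 (ssq_nonneg x)).1
  have hlow : ∫ x, (box (k := k) (m := 2 + 1) L T).indicator (gsq Finset.univ u) x
      ≤ 2 * ∫ x, ζ x * eden u x := by
    rw [← integral_const_mul]
    refine integral_mono (box_integrable (gsq_contDiff hsol.reg _).continuous _ _)
      (((hζd.continuous.mul (eden_continuous hsol.reg)).integrable_of_hasCompactSupport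
        hζc.mul_right).const_mul 2) fun x => ?_
    by_cases hx : x ∈ box L T
    · rw [Set.indicator_of_mem hx, show ζ x = 1 by
        simp [hζ, tst, (sc_facts hL0 (rsq_nonneg x)).2.2.1 hx.1,
          (sc_facts hT0 (ssq_nonneg x)).2.2.1 hx.2], one_mul]
      exact eden_ge u x
    · rw [Set.indicator_of_notMem hx]
      exact mul_nonneg two_pos.le (mul_nonneg (hζ0 x) (eden_nonneg u x))
  have hout : ∀ x, x ∉ box (2 * L) (2 * T) → ζ x = 0 ∧ ∀ q, pd q ζ x = 0 := by
    intro x hx
    obtain ⟨tc, tn⟩ := pd_tst (k := k) (m := 2 + 1) (sc_hasDerivAt L (rsq x))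
      (sc_hasDerivAt T (ssq x))
    obtain ⟨-, -, -, a3⟩ := sc_facts hL0 (rsq_nonneg x)
    obtain ⟨-, -, -, b3⟩ := sc_facts hT0 (ssq_nonneg x)
    rw [show x ∈ box (2 * L) (2 * T) ↔ rsq x ≤ (2 * L) ^ 2 ∧ ssq x ≤ (2 * T) ^ 2 from Iff.rfl,
      not_and_or, not_le, not_le, mul_pow, mul_pow] at hx
    norm_num at hx
    rcases hx with h | h
    · have z : sc' L (rsq x) = 0 := by
        by_contra hne
        linarith [((sc'_bound hL0 (rsq_nonneg x) hB).2 hne).2]
      refine ⟨by simp [hζ, tst, a3 h.le], fun q => ?_⟩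
      induction q using Fin.addCases with
      | left i => simp [hζ, tc, z]
      | right j => simp [hζ, tn, a3 h.le]
    · have z : sc' T (ssq x) = 0 := by
        by_contra hne
        linarith [((sc'_bound hT0 (ssq_nonneg x) hB).2 hne).2]
      refine ⟨by simp [hζ, tst, b3 h.le], fun q => ?_⟩
      induction q using Fin.addCases with
      | left i => simp [hζ, tc, b3 h.le]
      | right j => simp [hζ, tn, z]
  have hgrad : ∫ x, ∑ q, |pd q ζ x|
      ≤ ((k + (2 + 1) : ℕ) : ℝ) * (4 * B / T) * ((4 * L) ^ k * (4 * T) ^ 3) := by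
    refine (integral_mono_of_nonneg (g := fun x => ((k + (2 + 1) : ℕ) : ℝ) * (4 * B / T)
      * (box (k := k) (m := 2 + 1) (2 * L) (2 * T)).indicator (fun _ => (1 : ℝ)) x)
      (Eventually.of_forall fun x => Finset.sum_nonneg fun q _ => abs_nonneg _)
      ((box_integrable continuous_const _ _).const_mul _) (Eventually.of_forall fun x => ?_)).trans ?_
    · beta_reduce
      by_cases hx : x ∈ box (2 * L) (2 * T)
      · obtain ⟨tc, tn⟩ := pd_tst (k := k) (m := 2 + 1) (sc_hasDerivAt L (rsq x))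
          (sc_hasDerivAt T (ssq x))
        obtain ⟨a0, a1, -, -⟩ := sc_facts hL0 (rsq_nonneg x)
        obtain ⟨b0, b1, -, -⟩ := sc_facts hT0 (ssq_nonneg x)
        rw [Set.indicator_of_mem hx, mul_one]
        refine (Finset.sum_le_sum (g := fun _ => 4 * B / T) fun q _ => ?_).trans
          (le_of_eq (by simp))
        induction q using Fin.addCases with
        | left i =>
          have hxi : |x (Fin.castAdd (2 + 1) i)| ≤ 2 * L :=
            abs_le_of_sq_le_sq ((Finset.single_le_sum (f := fun i => x (Fin.castAdd (2 + 1) i) ^ 2)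
              (fun i _ => sq_nonneg _) (Finset.mem_univ i)).trans hx.1) (by linarith)
          rw [tc, abs_mul, abs_mul, abs_mul, abs_two, abs_of_nonneg b0]
          calc |sc' L (rsq x)| * (2 * |x (Fin.castAdd (2 + 1) i)|) * sc T (ssq x)
              ≤ B / L ^ 2 * (2 * (2 * L)) * 1 :=
                mul_le_mul (mul_le_mul (sc'_bound hL0 (rsq_nonneg x) hB).1
                  (mul_le_mul_of_nonneg_left hxi two_pos.le) (by positivity) (by positivity))
                  b1 b0 (by positivity)
            _ = 4 * B / L := by field_simp; ring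
            _ ≤ 4 * B / T := div_le_div_of_nonneg_left (by positivity) hT0 hLT
        | right j =>
          have hxj : |x (Fin.natAdd k j)| ≤ 2 * T :=
            abs_le_of_sq_le_sq ((Finset.single_le_sum (f := fun j => x (Fin.natAdd k j) ^ 2)
              (fun i _ => sq_nonneg _) (Finset.mem_univ j)).trans hx.2) (by linarith)
          rw [tn, abs_mul, abs_mul, abs_mul, abs_two, abs_of_nonneg a0]
          calc sc L (rsq x) * (|sc' T (ssq x)| * (2 * |x (Fin.natAdd k j)|))
              ≤ 1 * (B / T ^ 2 * (2 * (2 * T))) :=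
                mul_le_mul a1 (mul_le_mul (sc'_bound hT0 (ssq_nonneg x) hB).1
                  (mul_le_mul_of_nonneg_left hxj two_pos.le) (by positivity) (by positivity))
                  (by positivity) zero_le_one
            _ = 4 * B / T := by field_simp; ring
      · rw [Set.indicator_of_notMem hx, mul_zero]
        simp [(hout x hx).2]
    · rw [integral_const_mul]
      refine mul_le_mul_of_nonneg_left ((box_volume (by positivity) (by positivity)).trans
        (le_of_eq ?_)) (by positivity)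
      norm_num
      ring
  have hwc : Continuous (eden w) := eden_continuous hw.reg
  have hvlim : ∫ x, ζ x * eden v x ≤ Cw * (2 * L) ^ k * (2 * T) * (4 * T) := by
    set g : Sp (k + 2) → ℝ := (box (k := k) (m := 2) (2 * L) (2 * T)).indicator (eden w) with hg
    set h : ℝ → ℝ := (Set.Icc (-(2 * T)) (2 * T)).indicator fun _ => 1 with hh
    have hdom : ∀ x : Sp (k + (2 + 1)), ζ x * eden v x ≤ g (tlL (n := k + 2) l x) * h (x l) := by
      intro x
      have h0 : 0 ≤ g (tlL (n := k + 2) l x) * h (x l) :=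
        mul_nonneg (Set.indicator_nonneg (fun y _ => eden_nonneg w y) _)
          (Set.indicator_nonneg (fun _ _ => zero_le_one) _)
      by_cases hx : x ∈ box (2 * L) (2 * T)
      · have m1 : tlL (n := k + 2) l x ∈ box (k := k) (m := 2) (2 * L) (2 * T) := by
          refine ⟨?_, ?_⟩
          · refine le_trans (le_of_eq (Finset.sum_congr rfl fun i _ => ?_)) hx.1
            rw [tlL_coord, hc1]
          · refine le_trans ?_ hx.2
            show ∑ j : Fin 2, tlL (n := k + 2) l x (Fin.natAdd k j) ^ 2 ≤ _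
            simp only [tlL_coord, hc2]
            show _ ≤ ∑ j : Fin (2 + 1), x (Fin.natAdd k j) ^ 2
            rw [Fin.sum_univ_castSucc (n := 2)]
            have := sq_nonneg (x (Fin.natAdd k (Fin.last 2)))
            exact le_add_of_nonneg_right this
        have m2 : x l ∈ Set.Icc (-(2 * T)) (2 * T) := abs_le.1 (abs_le_of_sq_le_sq
          ((Finset.single_le_sum (f := fun j => x (Fin.natAdd k j) ^ 2)
            (fun i _ => sq_nonneg _) (Finset.mem_univ (Fin.last 2))).trans hx.2) (by linarith))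
        rw [hg, hh, Set.indicator_of_mem m1, Set.indicator_of_mem m2, mul_one, ← hve]
        exact mul_le_of_le_one_left (eden_nonneg v x) (mul_le_one₀
          (sc_facts hL0 (rsq_nonneg x)).2.1 (sc_facts hT0 (ssq_nonneg x)).1
          (sc_facts hT0 (ssq_nonneg x)).2.1)
      · rw [(hout x hx).1, zero_mul]
        exact h0
    have hint : Integrable fun x : Sp (k + (2 + 1)) => g (tlL (n := k + 2) l x) * h (x l) := by
      have e : (fun x : Sp (k + (2 + 1)) => g (tlL (n := k + 2) l x) * h (x l))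
          = ((fun x : Sp (k + (2 + 1)) => tlL (n := k + 2) l x) ⁻¹' box (2 * L) (2 * T)
            ∩ (fun x : Sp (k + (2 + 1)) => x l) ⁻¹' Set.Icc (-(2 * T)) (2 * T)).indicator
            fun x => eden w (tlL (n := k + 2) l x) := by
        funext x
        simp only [hg, hh]
        by_cases a : tlL (n := k + 2) l x ∈ box (2 * L) (2 * T) <;>
          by_cases b : x l ∈ Set.Icc (-(2 * T)) (2 * T) <;> simp [Set.indicator, a, b]
      rw [e]
      have hcl : IsClosed ((fun x : Sp (k + (2 + 1)) => tlL (n := k + 2) l x) ⁻¹' box (2 * L) (2 * T)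
            ∩ (fun x : Sp (k + (2 + 1)) => x l) ⁻¹' Set.Icc (-(2 * T)) (2 * T)) :=
        ((box_isClosed _ _).preimage (tlL (n := k + 2) l).continuous).inter
          (isClosed_Icc.preimage (coord_contDiff (N := 1) _).continuous)
      refine ((hwc.comp (tlL (n := k + 2) l).continuous).continuousOn.integrableOn_compact
        ?_).integrable_indicator hcl.measurableSet
      refine (box_isCompact (k := k) (m := 2 + 1) (2 * L) (4 * T)).of_isClosed_subset hcl ?_
      intro x hx
      obtain ⟨m1, m2⟩ := hx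
      refine ⟨le_trans (le_of_eq (Finset.sum_congr rfl fun i _ => ?_)) m1.1, ?_⟩
      · rw [tlL_coord, hc1]
      · have a := m1.2
        have b : x l ^ 2 ≤ (2 * T) ^ 2 := sq_le_sq' m2.1 m2.2
        show ∑ j : Fin (2 + 1), x (Fin.natAdd k j) ^ 2 ≤ _
        rw [Fin.sum_univ_castSucc]
        have a' : ∑ j : Fin 2, x (Fin.natAdd k j.castSucc) ^ 2 ≤ (2 * T) ^ 2 := by
          refine le_trans (le_of_eq (Finset.sum_congr rfl fun j _ => ?_)) a
          rw [tlL_coord, hc2]
        have b' : x (Fin.natAdd k (Fin.last 2)) ^ 2 ≤ (2 * T) ^ 2 := b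
        nlinarith [sq_nonneg T]
    refine (integral_mono ((hζd.continuous.mul (eden_continuous hv.reg)).integrable_of_hasCompactSupport
      hζc.mul_right) hint hdom).trans ?_
    rw [split_integral l g h]
    have e : ∫ t, h t = 4 * T := by
      rw [hh, integral_indicator measurableSet_Icc, setIntegral_const]
      simp [Real.volume_real_Icc_of_le (show -(2 * T) ≤ 2 * T by linarith)]
      ring
    rw [e]
    exact mul_le_mul_of_nonneg_right (hwL w ⟨hw, fun y => hvb _, hws⟩) (by positivity)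
  have hs := sliding_gap hsol hb _ hpos hL10 (hL1 u hsol hb).1 hlim hlim1 hζd hζc hζ0
  refine hlow.trans ((mul_le_mul_of_nonneg_left (hs.trans (add_le_add hvlim
    (mul_le_mul_of_nonneg_left hgrad (by positivity)))) two_pos.le).trans (le_of_eq ?_))
  rw [mul_pow, mul_pow, mul_pow]
  field_simp

/-- The averaged defect of monotone solutions tends to zero. -/
theorem mono_defect (k : ℕ) {R : ℝ} (hR : 0 ≤ R) {ε : ℝ} (hε : 0 < ε) :
    ∀ᶠ L in atTop, ∀ u : Sp (k + (2 + 1)) → ℝ, Mon u →
      ∫ x, (box (k := k) (m := 2 + 1) L R).indicator (df u) x ≤ ε * L ^ k := by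
  obtain ⟨C, hC0, hC⟩ := mono_energy k
  exact defect_slab (P := Mon) (fun _ h => h.cls) hC0 hC hR hε

end Vale.Agent.P134A
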