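import Vale.Agent.P134R.Energy

/-!
# P134: compactness of stable solutions, and energy in windows of small defect
-/

namespace Vale.Agent.P134A

open MeasureTheory Filter Topology Finset Vale.Agent.P134 Vale.Agent.P134R

variable {n : ℕ}

/-- The squared failure of the gradient to have a locally constant direction. -/
noncomputable def df (u : Sp n → ℝ) (x : Sp n) : ℝ :=
  ∑ q, ∑ i, ∑ j, (pd i u x * pd q (pd j u) x - pd j u x * pd q (pd i u) x) ^ 2

/-- The class of bounded stable solutions. -/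
structure Cls (u : Sp n → ℝ) : Prop where
  /-- equation -/
  sol : IsSol ac u
  /-- bound -/
  bdd : ∀ x, |u x| ≤ 1
  /-- stability -/
  stb : Stable u

theorem Cls.shift {u : Sp n → ℝ} (h : Cls u) (a : Sp n) : Cls fun y => u (y + a) :=
  ⟨sol_shift h.sol a, fun _ => h.bdd _, stable_shift h.stb a⟩

theorem df_nonneg (u : Sp n → ℝ) (x : Sp n) : 0 ≤ df u x :=
  Finset.sum_nonneg fun _ _ => Finset.sum_nonneg fun _ _ => Finset.sum_nonneg fun _ _ => sq_nonneg _

theorem df_continuous {u : Sp n → ℝ} (hu : ContDiff ℝ 2 u) : Continuous (df u) :=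
  continuous_finsetSum _ fun q _ => continuous_finsetSum _ fun i _ => continuous_finsetSum _ fun j _ =>
    (((pd_contDiff hu i).continuous.mul (pd_cont (pd_contDiff hu j) q)).sub
      ((pd_contDiff hu j).continuous.mul (pd_cont (pd_contDiff hu i) q))).pow 2

theorem df_shift (u : Sp n → ℝ) (a x : Sp n) : df (fun y => u (y + a)) x = df u (x + a) := by
  simp only [df, pd_shift]

theorem eden_shift (u : Sp n → ℝ) (a x : Sp n) : eden (fun y => u (y + a)) x = eden u (x + a) := by
  simp only [eden, gsq, pd_shift]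

theorem eden_nonneg (u : Sp n → ℝ) (x : Sp n) : 0 ≤ eden u x := by
  have := gsq_nonneg (Finset.univ : Finset (Fin n)) u x
  rw [eden]
  positivity

theorem eden_continuous {u : Sp n → ℝ} (hu : ContDiff ℝ 2 u) : Continuous (eden u) :=
  ((gsq_contDiff hu _).continuous.div_const 2).add
    (((continuous_const.sub (hu.continuous.pow 2)).pow 2).div_const 4)

theorem bounds_unif (n : ℕ) : ∃ L : ℝ, 0 ≤ L ∧ ∀ u : Sp n → ℝ, IsSol ac u → (∀ x, |u x| ≤ 1) →
    ∀ x, eden u x ≤ L ∧ |df u x| ≤ L := by
  obtain ⟨L, hL0, hL⟩ := reg_bounds_unif n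
  refine ⟨(n * L ^ 2 + 1) + (n * (n * (n * (2 * (L * L)) ^ 2))), by positivity,
    fun u hu hb x => ?_⟩
  obtain ⟨hg, -, -, hh⟩ := hL u hu hb
  have h1 : gsq Finset.univ u x ≤ n * L ^ 2 := by
    have h : gsq Finset.univ u x ≤ ∑ _i : Fin n, L ^ 2 := Finset.sum_le_sum fun i _ =>
      sq_le_sq' (abs_le.1 (hg x i)).1 (abs_le.1 (hg x i)).2
    simpa using h
  have hv := (sq_le_one_iff_abs_le_one _).2 (hb x)
  have h3 : (1 - u x ^ 2) ^ 2 ≤ 1 := pow_le_one₀ (by linarith) (by linarith [sq_nonneg (u x)])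
  have h4 : df u x ≤ n * (n * (n * (2 * (L * L)) ^ 2)) := by
    refine (Finset.sum_le_sum (g := fun _ => (n : ℝ) * (n * (2 * (L * L)) ^ 2)) fun q _ => ?_).trans
      (by simp)
    refine (Finset.sum_le_sum (g := fun _ => (n : ℝ) * (2 * (L * L)) ^ 2) fun i _ => ?_).trans
      (by simp)
    refine (Finset.sum_le_sum (g := fun _ => (2 * (L * L)) ^ 2) fun j _ => ?_).trans (by simp)
    refine (sq_abs _).symm.trans_le (pow_le_pow_left₀ (abs_nonneg _) ?_ 2)
    refine (abs_sub _ _).trans ?_
    rw [abs_mul, abs_mul]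
    have a := mul_le_mul (hg x i) (hh x q j) (abs_nonneg _) hL0
    have b := mul_le_mul (hg x j) (hh x q i) (abs_nonneg _) hL0
    linarith
  refine ⟨?_, ?_⟩
  · rw [eden]
    nlinarith [show (0 : ℝ) ≤ n * (n * (n * (2 * (L * L)) ^ 2)) by positivity, mul_nonneg
      (Nat.cast_nonneg (α := ℝ) n) (sq_nonneg L)]
  · rw [abs_of_nonneg (df_nonneg u x)]
    nlinarith [show (0 : ℝ) ≤ n * L ^ 2 + 1 by positivity]

/-- Sequential compactness of the class. -/
theorem compact_seq (g : ℕ → Sp n → ℝ) (hg : ∀ N, Cls (g N)) :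
    ∃ φ : ℕ → ℕ, StrictMono φ ∧ ∃ v, Cls v ∧
      (∀ x, Tendsto (fun N => g (φ N) x) atTop (𝓝 (v x))) ∧
      (∀ x i, Tendsto (fun N => pd i (g (φ N)) x) atTop (𝓝 (pd i v x))) ∧
      ∀ x i q, Tendsto (fun N => pd i (pd q (g (φ N))) x) atTop (𝓝 (pd i (pd q v) x)) := by
  obtain ⟨L, hL0, hL⟩ := reg_bounds_unif n
  set p := TopologicalSpace.denseSeq (Sp n)
  have hK : IsCompact (Set.pi Set.univ fun _ : ℕ => Set.Icc (-1 : ℝ) 1) :=
    isCompact_univ_pi fun _ => isCompact_Icc
  obtain ⟨a, -, φ, hφ, ha⟩ := hK.tendsto_subseq (x := fun N i => g N (p i))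
    fun N i _ => abs_le.1 ((hg N).bdd _)
  rw [tendsto_pi_nhds] at ha
  have hlip : ∀ N x y, |g N y - g N x| ≤ n * L * ‖y - x‖ := fun N x y =>
    lip_of_pd ((hg N).sol.reg.differentiable two_ne_zero) (hL _ (hg N).sol (hg N).bdd).1 x y
  have hex : ∀ x, ∃ z, Tendsto (fun N => g (φ N) x) atTop (𝓝 z) := by
    intro x
    refine cauchySeq_tendsto_of_complete (Metric.cauchySeq_iff'.2 fun ε hε => ?_)
    obtain ⟨i, hi⟩ := (TopologicalSpace.denseRange_denseSeq (Sp n)).exists_dist_lt x
      (show 0 < ε / (4 * (n * L + 1)) by positivity)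
    obtain ⟨N0, hN0⟩ := Metric.cauchySeq_iff'.1 (ha i).cauchySeq (ε / 2) (by positivity)
    refine ⟨N0, fun N hN => ?_⟩
    have h1 := hN0 N hN
    simp only [Function.comp_apply] at h1
    have h2 : (n : ℝ) * L * ‖p i - x‖ ≤ ε / 4 := by
      rw [dist_comm, dist_eq_norm] at hi
      refine (mul_le_mul_of_nonneg_left hi.le (by positivity)).trans ?_
      rw [mul_div_assoc', div_le_div_iff₀ (by positivity) (by norm_num)]
      nlinarith
    have k1 := abs_le.1 ((hlip (φ N) x (p i)).trans h2)
    have k2 := abs_le.1 ((hlip (φ N0) x (p i)).trans h2)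
    rw [Real.dist_eq] at h1 ⊢
    have k3 := abs_lt.1 h1
    rw [abs_lt]
    constructor <;> linarith
  choose v hv using hex
  obtain ⟨hv1, hp1⟩ := conv_grad (g := fun N => g (φ N)) (C := L)
    (fun N => (hg _).sol.reg.differentiable two_ne_zero) hL0
    (fun N => (hL _ (hg _).sol (hg _).bdd).2.1) hv
  have hsec : ∀ q, ContDiff ℝ 1 (pd q v) ∧ ∀ x i,
      Tendsto (fun N => pd i (pd q (g (φ N))) x) atTop (𝓝 (pd i (pd q v) x)) := fun q =>
    conv_grad (g := fun N => pd q (g (φ N))) (C := L)
      (fun N => (pd_contDiff (hg _).sol.reg q).differentiable one_ne_zero) hL0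
      (fun N x h i => (hL _ (hg _).sol (hg _).bdd).2.2.1 x h i q) fun x => hp1 x q
  refine ⟨φ, hφ, v, ⟨⟨contDiff_two_of_pd hv1 fun q => (hsec q).1, fun x => ?_⟩,
    fun x => le_of_tendsto' (hv x).abs fun N => (hg _).bdd x, ?_⟩, hv, hp1,
    fun x i q => (hsec q).2 x i⟩
  · refine tendsto_nhds_unique ?_ ((ac_contDiff.continuous.tendsto _).comp (hv x))
    refine (tendsto_finsetSum _ fun q _ => (hsec q).2 x q).congr fun N => ?_
    exact (hg (φ N)).sol.eqn _
  · intro ψ hψ hc
    refine ge_of_tendsto' (x := (atTop : Filter ℕ)) (f := fun N : ℕ => ∫ x, ((∑ q, pd q ψ x ^ 2)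
      + (3 * g (φ N) x ^ 2 - 1) * ψ x ^ 2)) ?_ fun N => (hg _).stb ψ hψ hc
    refine tendsto_integral_of_dominated_convergence
      (fun x => (∑ q, pd q ψ x ^ 2) + 2 * ψ x ^ 2) (fun N => ?_) ?_ (fun N => ?_) ?_
    · exact ((continuous_finsetSum _ fun q _ => (pd_cont hψ q).pow 2).add
        (((((hg _).sol.reg.continuous.pow 2).const_mul 3).sub
          continuous_const).mul (hψ.continuous.pow 2))).aestronglyMeasurable
    · exact ((continuous_finsetSum _ fun q _ => (pd_cont hψ q).pow 2).add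
        ((hψ.continuous.pow 2).const_mul 2)).integrable_of_hasCompactSupport
        (HasCompactSupport.intro hc fun x hx => by simp [(hcs_zero hx).1, (hcs_zero hx).2])
    · refine Eventually.of_forall fun x => ?_
      rw [Real.norm_eq_abs]
      refine (abs_add_le _ _).trans (add_le_add (le_of_eq (abs_of_nonneg
        (Finset.sum_nonneg fun _ _ => sq_nonneg _))) ?_)
      rw [abs_mul, abs_of_nonneg (sq_nonneg (ψ x))]
      refine mul_le_mul_of_nonneg_right ?_ (sq_nonneg _)
      have h1 := (sq_le_one_iff_abs_le_one _).2 ((hg (φ N)).bdd x)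
      have h0 := sq_nonneg (g (φ N) x)
      rw [abs_le]
      constructor <;> linarith
    · exact Eventually.of_forall fun x =>
        (((((hv x).pow 2).const_mul 3).sub_const 1).mul_const _).const_add _

/-- Small defect in a large ball forces the energy of at most one interface. -/
theorem window {ζ : Sp n → ℝ} (hζ : ContDiff ℝ 1 ζ) (hc : HasCompactSupport ζ)
    (hζ0 : ∀ x, 0 ≤ ζ x) {ε : ℝ} (hε : 0 < ε) :
    ∃ R M : ℝ, 0 ≤ R ∧ 0 ≤ M ∧ ∀ w : Sp n → ℝ, Cls w →
      ∫ x, ζ x * eden w x ≤ (∫ x, ∑ q, |pd q ζ x|) + ε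
        + M * ∫ x, (Metric.closedBall (0 : Sp n) R).indicator (df w) x := by
  obtain ⟨L, hL0, hL⟩ := bounds_unif n
  have iζ : Integrable ζ := hζ.continuous.integrable_of_hasCompactSupport hc
  set Z : ℝ := L * ∫ x, ζ x with hZ
  have hZ0 : 0 ≤ Z := mul_nonneg hL0 (integral_nonneg hζ0)
  have hG0 : 0 ≤ ∫ x, ∑ q, |pd q ζ x| :=
    integral_nonneg fun x => Finset.sum_nonneg fun q _ => abs_nonneg _
  have hfin : ∀ w : Sp n → ℝ, Cls w → ∫ x, ζ x * eden w x ≤ Z := fun w hw => by
    rw [hZ, ← integral_const_mul]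
    refine integral_mono_of_nonneg (Eventually.of_forall fun x => mul_nonneg (hζ0 x)
      (eden_nonneg w x)) (iζ.const_mul L) (Eventually.of_forall fun x => ?_)
    show ζ x * eden w x ≤ L * ζ x
    rw [mul_comm L]
    exact mul_le_mul_of_nonneg_left (hL w hw.sol hw.bdd x).1 (hζ0 x)
  by_contra hcon
  push Not at hcon
  choose w hw hbad using fun N : ℕ => hcon N (((N : ℝ) + 1) * (Z + 1)) (Nat.cast_nonneg N)
    (by positivity)
  have hdf0 : ∀ (N : ℕ) R, 0 ≤ ∫ x, (Metric.closedBall (0 : Sp n) R).indicator (df (w N)) x :=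
    fun N R => integral_nonneg fun x => Set.indicator_nonneg (fun y _ => df_nonneg _ _) x
  have hsmall : ∀ N : ℕ, ∫ x, (Metric.closedBall (0 : Sp n) N).indicator (df (w N)) x
      ≤ 1 / ((N : ℝ) + 1) := by
    intro N
    have h1 := hfin _ (hw N)
    have h2 := hbad N
    set I := ∫ x, (Metric.closedBall (0 : Sp n) N).indicator (df (w N)) x with hI
    have h3 : ((N : ℝ) + 1) * (Z + 1) * I ≤ Z + 1 := by linarith
    rw [le_div_iff₀ (by positivity)]
    by_contra hh
    push Not at hh
    nlinarith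
  obtain ⟨φ, hφ, v, hv, hl0, hl1, hl2⟩ := compact_seq w hw
  have hdl : ∀ x, Tendsto (fun N => df (w (φ N)) x) atTop (𝓝 (df v x)) := fun x =>
    tendsto_finsetSum _ fun q _ => tendsto_finsetSum _ fun i _ => tendsto_finsetSum _ fun j _ =>
      (((hl1 x i).mul (hl2 x q j)).sub ((hl1 x j).mul (hl2 x q i))).pow 2
  have hzero : ∀ x, df v x = 0 := by
    refine eq_zero_of_small (df_continuous hv.sol.reg) (df_nonneg v) fun R => ?_
    have hlim : Tendsto (fun N => ∫ x, (Metric.closedBall (0 : Sp n) R).indicator (df (w (φ N))) x)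
        atTop (𝓝 (∫ x, (Metric.closedBall (0 : Sp n) R).indicator (df v) x)) := by
      refine tendsto_integral_of_dominated_convergence
        ((Metric.closedBall (0 : Sp n) R).indicator fun _ => L) (fun N => ?_) ?_ (fun N => ?_) ?_
      · exact ((df_continuous (hw _).sol.reg).stronglyMeasurable.indicator
          measurableSet_closedBall).aestronglyMeasurable
      · exact ((continuous_const : Continuous fun _ : Sp n => L).continuousOn.integrableOn_compact
          (isCompact_closedBall _ _)).integrable_indicator measurableSet_closedBall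
      · refine Eventually.of_forall fun x => ?_
        rw [norm_indicator_eq_indicator_norm]
        exact Set.indicator_le_indicator (by
          rw [Real.norm_eq_abs]; exact (hL _ (hw _).sol (hw _).bdd x).2)
      · refine Eventually.of_forall fun x => ?_
        by_cases hx : x ∈ Metric.closedBall (0 : Sp n) R
        · simpa [Set.indicator_of_mem hx] using hdl x
        · simp [Set.indicator_of_notMem hx]
    refine le_of_tendsto_of_tendsto hlim
      ((tendsto_one_div_add_atTop_nhds_zero_nat (𝕜 := ℝ)).comp hφ.tendsto_atTop) ?_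
    filter_upwards [(tendsto_natCast_atTop_atTop.comp hφ.tendsto_atTop).eventually_ge_atTop R]
      with N hN
    refine le_trans ?_ (hsmall (φ N))
    refine integral_mono
      (((df_continuous (hw _).sol.reg).continuousOn.integrableOn_compact
        (isCompact_closedBall _ _)).integrable_indicator measurableSet_closedBall)
      (((df_continuous (hw _).sol.reg).continuousOn.integrableOn_compact
        (isCompact_closedBall _ _)).integrable_indicator measurableSet_closedBall) fun x => ?_
    exact Set.indicator_le_indicator_of_subset (Metric.closedBall_subset_closedBall hN)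
      (fun y => df_nonneg _ _) x
  have hP : Par v := fun x i j q => by
    have h := hzero x
    simp only [df] at h
    have h1 := (Finset.sum_eq_zero_iff_of_nonneg fun q _ => Finset.sum_nonneg fun i _ =>
      Finset.sum_nonneg fun j _ => sq_nonneg _).1 h q (Finset.mem_univ _)
    have h2 := (Finset.sum_eq_zero_iff_of_nonneg fun i _ => Finset.sum_nonneg fun j _ =>
      sq_nonneg _).1 h1 i (Finset.mem_univ _)
    exact sub_eq_zero.1 (pow_eq_zero_iff two_ne_zero |>.1
      ((Finset.sum_eq_zero_iff_of_nonneg fun j _ => sq_nonneg _).1 h2 j (Finset.mem_univ _)))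
  have hElim : Tendsto (fun N => ∫ x, ζ x * eden (w (φ N)) x) atTop
      (𝓝 (∫ x, ζ x * eden v x)) := by
    refine tendsto_integral_of_dominated_convergence (fun x => L * ζ x) (fun N => ?_)
      (iζ.const_mul L) (fun N => ?_) ?_
    · exact (hζ.continuous.mul (eden_continuous (hw _).sol.reg)).aestronglyMeasurable
    · refine Eventually.of_forall fun x => ?_
      rw [Real.norm_eq_abs, abs_of_nonneg (mul_nonneg (hζ0 x) (eden_nonneg _ x)), mul_comm L]
      exact mul_le_mul_of_nonneg_left (hL _ (hw _).sol (hw _).bdd x).1 (hζ0 x)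
    · refine Eventually.of_forall fun x => Tendsto.const_mul _ ?_
      exact ((tendsto_finsetSum _ fun i _ => (hl1 x i).pow 2).div_const 2).add
        ((((hl0 x).pow 2).const_sub 1).pow 2 |>.div_const 4)
  have hlow : (∫ x, ∑ q, |pd q ζ x|) + ε ≤ ∫ x, ζ x * eden v x := by
    refine ge_of_tendsto' hElim fun N => ?_
    have h2 := hbad (φ N)
    have h3 : 0 ≤ (((φ N : ℕ) : ℝ) + 1) * (Z + 1)
        * ∫ x, (Metric.closedBall (0 : Sp n) (φ N : ℕ)).indicator (df (w (φ N))) x :=
      mul_nonneg (by positivity) (hdf0 _ _)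
    linarith
  have := profile_energy hv.sol hv.bdd hv.stb hP hζ hc
  linarith

end Vale.Agent.P134A
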