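import Vale.Agent.P134A.Seq
import Vale.Agent.P134R.Gain

/-!
# P134: averaged defect and energy in long slabs
-/

namespace Vale.Agent.P134A

open MeasureTheory Filter Topology Finset Vale.Agent.P134 Vale.Agent.P134R

variable {k m : ℕ}

theorem box_subset {R₁ R₂ S₁ S₂ : ℝ} (h0 : 0 ≤ R₁) (h0' : 0 ≤ R₂) (h1 : R₁ ≤ S₁) (h2 : R₂ ≤ S₂) :
    (box R₁ R₂ : Set (Sp (k + m))) ⊆ box S₁ S₂ := fun x hx =>
  ⟨hx.1.trans (pow_le_pow_left₀ h0 h1 2), hx.2.trans (pow_le_pow_left₀ h0' h2 2)⟩

theorem box_integrable {f : Sp (k + m) → ℝ} (hf : Continuous f) (R₁ R₂ : ℝ) :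
    Integrable ((box (k := k) (m := m) R₁ R₂).indicator f) :=
  (hf.continuousOn.integrableOn_compact (box_isCompact _ _)).integrable_indicator
    (box_isClosed _ _).measurableSet

theorem gsq_univ_bound {n : ℕ} (u : Sp n → ℝ) {L : ℝ} (hg : ∀ x i, |pd i u x| ≤ L) (x : Sp n) :
    gsq Finset.univ u x ≤ n * L ^ 2 := by
  have h : gsq Finset.univ u x ≤ ∑ _i : Fin n, L ^ 2 := Finset.sum_le_sum fun i _ =>
    sq_le_sq' (abs_le.1 (hg x i)).1 (abs_le.1 (hg x i)).2
  simpa using h

/-- The averaged defect of a class with quadratic averaged energy tends to zero. -/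
theorem defect_slab {P : (Sp (k + m) → ℝ) → Prop} (hPC : ∀ w, P w → Cls w) {C : ℝ} (_hC0 : 0 ≤ C)
    (hE : ∀ T : ℝ, 1 ≤ T → ∀ᶠ L in atTop, ∀ w, P w →
      ∫ x, (box (k := k) (m := m) L T).indicator (gsq Finset.univ w) x ≤ C * L ^ k * T ^ 2)
    {R : ℝ} (_hR : 0 ≤ R) {ε : ℝ} (hε : 0 < ε) :
    ∀ᶠ L in atTop, ∀ w, P w →
      ∫ x, (box (k := k) (m := m) L R).indicator (df w) x ≤ ε * L ^ k := by
  obtain ⟨B, hB0, hB⟩ := exists_th_bound
  obtain ⟨L0, hL00, hL0⟩ := reg_bounds_unif (k + m)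
  set K : ℝ := (k + m : ℕ) * L0 ^ 2 + 1 with hK
  have hK1 : 1 ≤ K := by
    rw [hK]
    linarith [mul_nonneg (Nat.cast_nonneg (α := ℝ) (k + m)) (sq_nonneg L0)]
  have hlim : Tendsto (fun I : ℕ => 2 * K * (2048 * B ^ 2 * C * 2 ^ k * (((I : ℝ) + 1) / (I : ℝ) ^ 2)))
      atTop (𝓝 0) := by
    have h1 := tendsto_inv_atTop_nhds_zero_nat (𝕜 := ℝ)
    have h2 : Tendsto (fun I : ℕ => 2 * K * (2048 * B ^ 2 * C * 2 ^ k) *
        ((I : ℝ)⁻¹ + (I : ℝ)⁻¹ * (I : ℝ)⁻¹)) atTop (𝓝 0) := by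
      simpa using (h1.add (h1.mul h1)).const_mul (2 * K * (2048 * B ^ 2 * C * 2 ^ k))
    refine h2.congr' ?_
    filter_upwards [eventually_ge_atTop 1] with I hI
    have : (I : ℝ) ≠ 0 := by positivity
    field_simp
  obtain ⟨I, hI, hIR, hIε⟩ := (((eventually_ge_atTop 1).and
    (((tendsto_pow_atTop_atTop_of_one_lt (one_lt_two (α := ℝ))).eventually_ge_atTop
      (1 + (R ^ 2) ^ 2)).and (hlim.eventually_le_const (half_pos hε))))).exists
  set Y : ℝ := 32 * K * B ^ 2 * (C * 2 ^ k * ((2 : ℝ) ^ I) ^ 2) with hY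
  have hdo : Tendsto (fun L : ℝ => 2 * L) atTop atTop :=
    Tendsto.const_mul_atTop (by norm_num) tendsto_id
  have hev : ∀ᶠ L in atTop, ∀ i ∈ Finset.range (I + 1), ∀ w, P w →
      ∫ x, (box (k := k) (m := m) (2 * L) (2 ^ i)).indicator (gsq Finset.univ w) x
        ≤ C * (2 * L) ^ k * ((2 : ℝ) ^ i) ^ 2 :=
    (eventually_all_finset _).2 fun i _ => hdo.eventually (hE _ (one_le_pow₀ one_le_two))
  filter_upwards [hev, eventually_ge_atTop (1 : ℝ),
    ((tendsto_pow_atTop two_ne_zero).eventually_ge_atTop (2 * Y / ε))] with L hEL hL1 hLY w hw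
  have hLp : 0 < L := by linarith
  obtain ⟨hu, hb, hs⟩ := hPC w hw
  set W := gsq Finset.univ w with hW
  have hWc : Continuous W := (gsq_contDiff hu.reg _).continuous
  have hWK : ∀ x, W x + 1 ≤ K := fun x => by
    have := gsq_univ_bound w (hL0 w hu hb).1 x
    rw [hK]
    linarith
  set η : Sp (k + m) → ℝ := tst (sc L) (lg I) with hη
  have hlg : ContDiff ℝ 1 (lg I) := contDiff_one_iff_deriv.2
    ⟨fun r => (lg_hasDerivAt I r).differentiableAt, by
      rw [show deriv (lg I) = lg' I from funext fun r => (lg_hasDerivAt I r).deriv]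
      exact lg'_continuous I⟩
  have hηd : ContDiff ℝ 1 η :=
    tst_contDiff (fun r _ => (sc_contDiff _).contDiffAt) fun r _ => hlg.contDiffAt
  have hηc : HasCompactSupport η := tst_compact (R := 4 * L ^ 2 + 4 ^ I)
    (fun r hr => (sc_facts hLp (by nlinarith [pow_pos (by norm_num : (0 : ℝ) < 4) I])).2.2.2
      (by nlinarith [pow_pos (by norm_num : (0 : ℝ) < 4) I]))
    fun r hr => lg_eq_zero (by nlinarith)
  have hDe : ∀ x, 2 * (W x * (∑ i, ∑ q, pd q (pd i w) x ^ 2) - ∑ q, sv Finset.univ w q x ^ 2)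
      = df w x := by
    intro x
    simp only [df, lagrange, ← Finset.mul_sum, Finset.sum_sub_distrib]
    simp only [hW, gsq, sv, Finset.mul_sum]
    rw [Finset.sum_comm (f := fun i q => (∑ j, pd j w x ^ 2) * pd q (pd i w) x ^ 2)]
  have hZ : ∀ δ : ℝ, 0 < δ → δ ≤ 1 → ∀ x, df w x / (2 * K) ≤
      (∑ i, ∑ q, pd q (pd i w) x ^ 2) - (∑ q, sv Finset.univ w q x ^ 2) / (W x + δ) := by
    intro δ h0 h1 x
    have hp : 0 < W x + δ := by linarith [gsq_nonneg (Finset.univ : Finset (Fin (k + m))) w x]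
    have hA : (0 : ℝ) ≤ ∑ i, ∑ q, pd q (pd i w) x ^ 2 :=
      Finset.sum_nonneg fun _ _ => Finset.sum_nonneg fun _ _ => sq_nonneg _
    calc df w x / (2 * K) ≤ df w x / (2 * (W x + δ)) :=
          div_le_div_of_nonneg_left (df_nonneg w x) (by positivity) (by linarith [hWK x])
      _ ≤ _ := by
          rw [← hDe x, mul_div_mul_left _ _ two_ne_zero, sub_div' hp.ne']
          exact div_le_div_of_nonneg_right (by nlinarith) hp.le
  have hdc : Continuous (df w) := df_continuous hu.reg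
  have h := stab_SZ hu hb hs Finset.univ hηd hηc (hdc.div_const (2 * K)) hZ
  set c : ℕ → ℝ := fun i => 2048 * B ^ 2 / (I : ℝ) ^ 2 * ((4 : ℝ)⁻¹) ^ i with hc
  have hc0 : ∀ i, 0 ≤ c i := fun i => by positivity
  have hpt : ∀ x, W x * ∑ q, pd q η x ^ 2
      ≤ 16 * B ^ 2 / L ^ 2 * (box (k := k) (m := m) (2 * L) (2 ^ I)).indicator W x
        + ∑ i ∈ Finset.range (I + 1), c i * (box (k := k) (m := m) (2 * L) (2 ^ i)).indicator W x := by
    intro x
    obtain ⟨p1, p2⟩ := pd_tst (k := k) (m := m) (sc_hasDerivAt L (rsq x)) (lg_hasDerivAt I (ssq x))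
    have hW0 : 0 ≤ W x := gsq_nonneg _ _ x
    have e : ∑ q, pd q η x ^ 2 = 4 * rsq x * sc' L (rsq x) ^ 2 * lg I (ssq x) ^ 2
        + sc L (rsq x) ^ 2 * (4 * ssq x * lg' I (ssq x) ^ 2) := by
      rw [Fin.sum_univ_add, hη]
      simp only [p1, p2]
      rw [show rsq x = ∑ i : Fin k, x (Fin.castAdd m i) ^ 2 from rfl,
        show ssq x = ∑ i : Fin m, x (Fin.natAdd k i) ^ 2 from rfl]
      simp only [Finset.mul_sum, Finset.sum_mul]
      exact congrArg₂ (· + ·) (Finset.sum_congr rfl fun q _ => by ring)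
        (Finset.sum_congr rfl fun q _ => by ring)
    obtain ⟨s0, s1, -, s3⟩ := sc_facts hLp (rsq_nonneg x)
    rw [e, mul_add]
    refine add_le_add ?_ ?_
    · by_cases hx : x ∈ box (2 * L) (2 ^ I)
      · rw [Set.indicator_of_mem hx, mul_comm (16 * B ^ 2 / L ^ 2)]
        refine mul_le_mul_of_nonneg_left ?_ hW0
        obtain ⟨b1, b2⟩ := sc'_bound hLp (rsq_nonneg x) hB
        have hl : lg I (ssq x) ^ 2 ≤ 1 := pow_le_one₀ (th_facts _).1 (th_facts _).2.1
        have hs2 : sc' L (rsq x) ^ 2 ≤ (B / L ^ 2) ^ 2 :=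
          sq_le_sq' (abs_le.1 b1).1 (abs_le.1 b1).2
        calc 4 * rsq x * sc' L (rsq x) ^ 2 * lg I (ssq x) ^ 2
            ≤ 4 * (2 * L) ^ 2 * (B / L ^ 2) ^ 2 * 1 := by
              refine mul_le_mul (mul_le_mul (mul_le_mul_of_nonneg_left hx.1 (by norm_num)) hs2
                (sq_nonneg _) ?_) hl (sq_nonneg _) ?_ <;> positivity
          _ = 16 * B ^ 2 / L ^ 2 := by field_simp; ring
      · rw [Set.indicator_of_notMem hx, mul_zero]
        refine le_of_eq ?_
        have hx' : (2 * L) ^ 2 < rsq x ∨ ((2 : ℝ) ^ I) ^ 2 < ssq x := by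
          rw [show x ∈ box (2 * L) (2 ^ I) ↔ rsq x ≤ (2 * L) ^ 2 ∧ ssq x ≤ ((2 : ℝ) ^ I) ^ 2
            from Iff.rfl, not_and_or, not_le, not_le] at hx
          exact hx
        rcases hx' with h1 | h1
        · have z : sc' L (rsq x) = 0 := by
            by_contra hne
            have := ((sc'_bound hLp (rsq_nonneg x) hB).2 hne).2
            linarith [show (2 * L) ^ 2 = 4 * L ^ 2 by ring]
          simp [z]
        · have z : lg I (ssq x) = 0 := lg_eq_zero (le_of_lt (lt_of_eq_of_lt (by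
            rw [← pow_mul, mul_comm, pow_mul]; norm_num) h1))
          simp [z]
    · by_cases hx : rsq x ≤ (2 * L) ^ 2
      · calc W x * (sc L (rsq x) ^ 2 * (4 * ssq x * lg' I (ssq x) ^ 2))
            ≤ W x * (4 * ssq x * lg' I (ssq x) ^ 2) :=
              mul_le_mul_of_nonneg_left (mul_le_of_le_one_left (mul_nonneg (mul_nonneg (by norm_num)
                (ssq_nonneg x)) (sq_nonneg _)) (pow_le_one₀ s0 s1)) hW0
          _ ≤ W x * ∑ i ∈ Finset.range (I + 1), if ssq x ≤ 4 ^ i then c i else 0 :=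
              mul_le_mul_of_nonneg_left (lg'_bound hB hI (ssq_nonneg x)) hW0
          _ = _ := by
              rw [Finset.mul_sum]
              refine Finset.sum_congr rfl fun i _ => ?_
              have e4 : ((2 : ℝ) ^ i) ^ 2 = 4 ^ i := by rw [← pow_mul, mul_comm, pow_mul]; norm_num
              by_cases hs : ssq x ≤ (4 : ℝ) ^ i
              · rw [if_pos hs, Set.indicator_of_mem
                  (show x ∈ box (2 * L) (2 ^ i) from ⟨hx, hs.trans_eq e4.symm⟩)]
                ring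
              · rw [if_neg hs, Set.indicator_of_notMem fun hm => hs (hm.2.trans_eq e4)]
                ring
      · rw [s3 (by linarith [not_le.1 hx, show (2 * L) ^ 2 = 4 * L ^ 2 by ring])]
        simp only [ne_eq, OfNat.ofNat_ne_zero, not_false_eq_true, zero_pow, zero_mul, mul_zero]
        exact Finset.sum_nonneg fun i _ => mul_nonneg (hc0 i)
          (Set.indicator_nonneg (fun y _ => gsq_nonneg _ _ y) x)
  have hrhs : ∫ x, W x * ∑ q, pd q η x ^ 2
      ≤ 16 * B ^ 2 / L ^ 2 * (C * (2 * L) ^ k * ((2 : ℝ) ^ I) ^ 2)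
        + 2048 * B ^ 2 * C * (((I : ℝ) + 1) / (I : ℝ) ^ 2) * (2 * L) ^ k := by
    refine (integral_mono_of_nonneg (Eventually.of_forall fun x => mul_nonneg (gsq_nonneg _ _ x)
      (Finset.sum_nonneg fun q _ => sq_nonneg _)) (((box_integrable hWc _ _).const_mul _).add
        (integrable_finsetSum _ fun i _ => (box_integrable hWc _ _).const_mul _))
      (Eventually.of_forall hpt)).trans ?_
    simp only [Pi.add_apply]
    rw [integral_add ((box_integrable hWc _ _).const_mul _)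
      (integrable_finsetSum _ fun i _ => (box_integrable hWc _ _).const_mul _),
      integral_finsetSum _ fun i _ => (box_integrable hWc _ _).const_mul _]
    simp only [integral_const_mul]
    refine add_le_add (mul_le_mul_of_nonneg_left (hEL I (Finset.self_mem_range_succ I) w hw)
      (by positivity)) ((Finset.sum_le_sum fun i hi =>
        mul_le_mul_of_nonneg_left (hEL i hi w hw) (hc0 i)).trans (le_of_eq ?_))
    have e : ∀ i : ℕ, c i * (C * (2 * L) ^ k * ((2 : ℝ) ^ i) ^ 2)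
        = 2048 * B ^ 2 * C * (2 * L) ^ k / (I : ℝ) ^ 2 := fun i => by
      rw [← pow_mul, mul_comm i 2, pow_mul, show ((2 : ℝ) ^ 2) = 4 by norm_num]
      simp only [hc, inv_pow]
      field_simp
    simp only [e, Finset.sum_const, Finset.card_range, nsmul_eq_mul, Nat.cast_add, Nat.cast_one]
    ring
  have hlow : ∫ x, (box (k := k) (m := m) L R).indicator (df w) x
      ≤ 2 * K * ∫ x, η x ^ 2 * (df w x / (2 * K)) := by
    rw [← integral_const_mul]
    refine integral_mono (box_integrable hdc _ _)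
      ((((hηd.continuous.pow 2).mul (hdc.div_const (2 * K))).integrable_of_hasCompactSupport
        (HasCompactSupport.intro hηc fun x hx => by simp [(hcs_zero hx).1])).const_mul (2 * K))
      fun x => ?_
    have e : 2 * K * (η x ^ 2 * (df w x / (2 * K))) = η x ^ 2 * df w x := by field_simp
    simp only [e]
    by_cases hx : x ∈ box L R
    · rw [Set.indicator_of_mem hx, hη, tst, (sc_facts hLp (rsq_nonneg x)).2.2.1 hx.1,
        lg_eq_one (le_trans (by nlinarith [ssq_nonneg x, hx.2]) hIR)]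
      simp
    · rw [Set.indicator_of_notMem hx]
      exact mul_nonneg (sq_nonneg _) (df_nonneg w x)
  have hLk : 0 ≤ L ^ k := by positivity
  have hY2 : Y / L ^ 2 ≤ ε / 2 := by
    rw [div_le_iff₀ (by positivity)]
    rw [div_le_iff₀ hε] at hLY
    linarith
  refine (hlow.trans (mul_le_mul_of_nonneg_left (h.trans hrhs) (by positivity))).trans ?_
  calc 2 * K * (16 * B ^ 2 / L ^ 2 * (C * (2 * L) ^ k * ((2 : ℝ) ^ I) ^ 2)
        + 2048 * B ^ 2 * C * (((I : ℝ) + 1) / (I : ℝ) ^ 2) * (2 * L) ^ k)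
      = (Y / L ^ 2 + 2 * K * (2048 * B ^ 2 * C * 2 ^ k * (((I : ℝ) + 1) / (I : ℝ) ^ 2))) * L ^ k := by
        rw [hY, mul_pow]
        field_simp
        ring
    _ ≤ (ε / 2 + ε / 2) * L ^ k := mul_le_mul_of_nonneg_right (add_le_add hY2 hIε) hLk
    _ = ε * L ^ k := by ring

/-- The grid point with integer coordinates `j`, at spacing `T`. -/
noncomputable def gp (T : ℝ) (j : Fin k → ℤ) : Sp (k + m) :=
  ∑ i, ((j i : ℝ) * T) • ev (Fin.castAdd m i)

theorem gp_cast (T : ℝ) (j : Fin k → ℤ) (i : Fin k) :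
    (gp (m := m) T j) (Fin.castAdd m i) = j i * T := by
  simp [gp, ev_apply, (Fin.castAdd_injective k m).eq_iff]

theorem gp_nat (T : ℝ) (j : Fin k → ℤ) (i : Fin m) : (gp (m := m) T j) (Fin.natAdd k i) = 0 := by
  simp [gp, ev_apply, (castAdd_ne_natAdd _ i).symm]

/-- The grid of points within `N` steps. -/
noncomputable def grid (k N : ℕ) : Finset (Fin k → ℤ) :=
  Fintype.piFinset fun _ => Finset.Icc (-(N : ℤ)) N

theorem grid_card (k N : ℕ) : ((grid k N).card : ℝ) = (2 * (N : ℝ) + 1) ^ k := by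
  have e : ((N : ℤ) + 1 + (N : ℤ)).toNat = 2 * N + 1 := by omega
  simp [grid, e]

theorem grid_cover {T : ℝ} (hT : 0 < T) {L : ℝ} {N : ℕ} (hN : L / T + 1 ≤ N) (hL : 0 ≤ L)
    {x : Sp (k + m)} (hx : x ∈ box L T) :
    ∃ j ∈ grid k N, nsq (x - gp T j) ≤ (((k : ℝ) + 1) * T) ^ 2 := by
  refine ⟨fun i => ⌊x (Fin.castAdd m i) / T⌋, Fintype.mem_piFinset.2 fun i => ?_, ?_⟩
  · have hxi : |x (Fin.castAdd m i)| ≤ L :=
      abs_le_of_sq_le_sq ((Finset.single_le_sum (f := fun i => x (Fin.castAdd m i) ^ 2)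
        (fun i _ => sq_nonneg _) (Finset.mem_univ i)).trans hx.1) hL
    obtain ⟨a, b⟩ := abs_le.1 hxi
    rw [Finset.mem_Icc]
    constructor
    · rw [Int.le_floor, le_div_iff₀ hT]
      push_cast
      rw [← le_div_iff₀ hT]
      have := div_le_div_of_nonneg_right a hT.le
      rw [neg_div] at this
      linarith
    · refine Int.floor_le_iff.2 ?_
      rw [div_lt_iff₀ hT]
      push_cast
      rw [← div_lt_iff₀ hT]
      have := div_le_div_of_nonneg_right b hT.le
      linarith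
  · rw [nsq_eq, norm_sq_eq]
    have h1 : rsq (x - gp T fun i => ⌊x (Fin.castAdd m i) / T⌋) ≤ ∑ _i : Fin k, T ^ 2 := by
      refine Finset.sum_le_sum fun i _ => ?_
      rw [PiLp.sub_apply, gp_cast]
      refine sq_le_sq' ?_ ?_
      · have := (le_div_iff₀ hT).1 (Int.floor_le (x (Fin.castAdd m i) / T))
        linarith
      · have := (div_lt_iff₀ hT).1 (Int.lt_floor_add_one (x (Fin.castAdd m i) / T))
        linarith [this]
    have h2 : ssq (x - gp T fun i => ⌊x (Fin.castAdd m i) / T⌋) = ssq x :=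
      Finset.sum_congr rfl fun i _ => by rw [PiLp.sub_apply, gp_nat, sub_zero]
    simp only [Finset.sum_const, Finset.card_univ, Fintype.card_fin, nsmul_eq_mul] at h1
    rw [h2]
    nlinarith [hx.2, show (0 : ℝ) ≤ k from Nat.cast_nonneg k, sq_nonneg ((k : ℝ) * T), mul_nonneg (Nat.cast_nonneg (α := ℝ) k) (sq_nonneg T)]

theorem grid_overlap {T R : ℝ} (hT : 0 < T) (hR : 0 ≤ R) {N : ℕ} {f : Sp (k + m) → ℝ}
    (hf : ∀ x, 0 ≤ f x) (x : Sp (k + m)) :
    ∑ j ∈ grid k N, (Metric.closedBall (0 : Sp (k + m)) R).indicator (fun y => f (y + gp T j))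
        (x - gp T j)
      ≤ ((⌈2 * R / T⌉₊ : ℝ) + 2) ^ k
        * (box (k := k) (m := m) (((k : ℝ) + 1) * ((N : ℝ) * T + R)) R).indicator f x := by
  classical
  set q : ℕ := ⌈2 * R / T⌉₊ + 2 with hq
  set F := (grid k N).filter fun j => x - gp T j ∈ Metric.closedBall (0 : Sp (k + m)) R with hF
  have hsum : ∑ j ∈ grid k N, (Metric.closedBall (0 : Sp (k + m)) R).indicator
      (fun y => f (y + gp T j)) (x - gp T j) = (F.card : ℝ) * f x := by
    simp only [Set.indicator_apply, sub_add_cancel]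
    rw [← Finset.sum_filter, Finset.sum_const, nsmul_eq_mul]
  rw [hsum]
  have hcoord : ∀ j ∈ F, ∀ i, |x (Fin.castAdd m i) - j i * T| ≤ R := by
    intro j hj i
    have h := (Finset.mem_filter.1 hj).2
    rw [mem_closedBall_zero_iff] at h
    have h2 := PiLp.norm_apply_le (x - gp T j) (Fin.castAdd m i)
    rw [PiLp.sub_apply, gp_cast, Real.norm_eq_abs] at h2
    exact h2.trans h
  have hcard : F.card ≤ q ^ k := by
    refine (Finset.card_le_card (t := Fintype.piFinset fun i : Fin k =>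
      Finset.Icc ⌈(x (Fin.castAdd m i) - R) / T⌉ ⌊(x (Fin.castAdd m i) + R) / T⌋) fun j hj =>
        Fintype.mem_piFinset.2 fun i => ?_).trans ?_
    · obtain ⟨a, b⟩ := abs_le.1 (hcoord j hj i)
      rw [Finset.mem_Icc, Int.ceil_le, Int.le_floor, div_le_iff₀ hT, le_div_iff₀ hT]
      constructor <;> linarith
    · rw [Fintype.card_piFinset]
      refine (Finset.prod_le_prod' fun i _ => (?_ : _ ≤ q)).trans (by simp)
      rw [Int.card_Icc, Int.toNat_le]
      have h1 := Int.floor_le ((x (Fin.castAdd m i) + R) / T)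
      have h2 := Int.le_ceil ((x (Fin.castAdd m i) - R) / T)
      have h3 := Nat.le_ceil (2 * R / T)
      have h4 : (x (Fin.castAdd m i) + R) / T - (x (Fin.castAdd m i) - R) / T = 2 * R / T := by ring
      have : ((⌊(x (Fin.castAdd m i) + R) / T⌋ + 1 - ⌈(x (Fin.castAdd m i) - R) / T⌉ : ℤ) : ℝ)
          ≤ ((q : ℤ) : ℝ) := by
        rw [hq]
        push_cast
        linarith
      exact_mod_cast this
  by_cases hx : x ∈ box (((k : ℝ) + 1) * ((N : ℝ) * T + R)) R
  · rw [Set.indicator_of_mem hx]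
    refine mul_le_mul_of_nonneg_right ?_ (hf x)
    calc (F.card : ℝ) ≤ ((q ^ k : ℕ) : ℝ) := by exact_mod_cast hcard
      _ = _ := by rw [hq]; push_cast; ring
  · rw [Set.indicator_of_notMem hx, mul_zero]
    refine le_of_eq (mul_eq_zero_of_left ?_ _)
    rw [Nat.cast_eq_zero, Finset.card_eq_zero, Finset.eq_empty_iff_forall_notMem]
    intro j hj
    refine hx ⟨?_, ?_⟩
    · have hi : ∀ i, x (Fin.castAdd m i) ^ 2 ≤ ((N : ℝ) * T + R) ^ 2 := fun i => by
        obtain ⟨a, b⟩ := abs_le.1 (hcoord j hj i)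
        have hj' := Finset.mem_Icc.1 (Fintype.mem_piFinset.1 (Finset.mem_filter.1 hj).1 i)
        have c : (j i : ℝ) ≤ N := by exact_mod_cast hj'.2
        have d : -(N : ℝ) ≤ j i := by exact_mod_cast hj'.1
        exact sq_le_sq' (by nlinarith) (by nlinarith)
      refine (Finset.sum_le_sum fun i _ => hi i).trans ?_
      rw [Finset.sum_const, Finset.card_univ, Fintype.card_fin, nsmul_eq_mul, mul_pow]
      refine mul_le_mul_of_nonneg_right ?_ (sq_nonneg _)
      nlinarith [show (0 : ℝ) ≤ k from Nat.cast_nonneg k]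
    · have h := (Finset.mem_filter.1 hj).2
      rw [mem_closedBall_zero_iff] at h
      have h2 : ssq (x - gp T j) = ssq x :=
        Finset.sum_congr rfl fun i _ => by rw [PiLp.sub_apply, gp_nat, sub_zero]
      rw [← h2]
      have := norm_sq_eq (x - gp T j)
      nlinarith [rsq_nonneg (x - gp T j), norm_nonneg (x - gp T j)]

end Vale.Agent.P134A
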