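import Vale.Agent.P134A.Avg

/-!
# P134: averages over transversal slices, and recurrent solutions
-/

namespace Vale.Agent.P134A

open MeasureTheory Filter Topology Finset Vale.Agent.P134 Vale.Agent.P134R

variable {k m : ℕ}

/-- The transversal shift. -/
noncomputable def sh (t : Fin k → ℝ) : Sp (k + m) := ∑ i, t i • ev (Fin.castAdd m i)

theorem sh_cast (t : Fin k → ℝ) (i : Fin k) : (sh (m := m) t) (Fin.castAdd m i) = t i := by
  simp [sh, ev_apply, (Fin.castAdd_injective k m).eq_iff]

theorem sh_nat (t : Fin k → ℝ) (i : Fin m) : (sh (m := m) t) (Fin.natAdd k i) = 0 := by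
  simp [sh, ev_apply, (castAdd_ne_natAdd _ i).symm]

theorem sh_add (s t : Fin k → ℝ) : sh (m := m) (s + t) = sh s + sh t := by
  simp [sh, add_smul, Finset.sum_add_distrib]

theorem gp_eq_sh (T : ℝ) (j : Fin k → ℤ) : gp (m := m) T j = sh fun i => (j i : ℝ) * T := rfl

theorem sh_continuous : Continuous (sh (k := k) (m := m)) :=
  continuous_finsetSum _ fun i _ => (continuous_apply i).smul continuous_const

theorem df_lip (n : ℕ) : ∃ K : ℝ, 0 ≤ K ∧ ∀ u : Sp n → ℝ, IsSol ac u → (∀ x, |u x| ≤ 1) →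
    ∀ x h, |df u (x + h) - df u x| ≤ K * ‖h‖ := by
  obtain ⟨L, hL0, hL⟩ := reg_bounds_unif n
  refine ⟨n * (n * (n * (16 * L ^ 4))), by positivity, fun u hu hb x h => ?_⟩
  obtain ⟨hg, hg1, hg2, hh⟩ := hL u hu hb
  simp only [df, ← Finset.sum_sub_distrib]
  refine (Finset.abs_sum_le_sum_abs _ _).trans ((Finset.sum_le_sum
    (g := fun _ => (n : ℝ) * (n * (16 * L ^ 4)) * ‖h‖) fun q _ => ?_).trans
      (le_of_eq (by simp; ring)))
  refine (Finset.abs_sum_le_sum_abs _ _).trans ((Finset.sum_le_sum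
    (g := fun _ => (n : ℝ) * (16 * L ^ 4) * ‖h‖) fun i _ => ?_).trans (le_of_eq (by simp; ring)))
  refine (Finset.abs_sum_le_sum_abs _ _).trans ((Finset.sum_le_sum
    (g := fun _ => 16 * L ^ 4 * ‖h‖) fun j _ => ?_).trans (le_of_eq (by simp; ring)))
  set A := pd i u (x + h) with hA
  set B := pd q (pd j u) (x + h) with hB
  set C := pd j u (x + h) with hC
  set D := pd q (pd i u) (x + h) with hD
  set a := pd i u x
  set b := pd q (pd j u) x
  set c := pd j u x
  set d := pd q (pd i u) x
  have p : ∀ s t : Fin n, |pd s u (x + h) * pd q (pd t u) (x + h) - pd s u x * pd q (pd t u) x|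
      ≤ 2 * (L * L) * ‖h‖ := by
    intro s t
    rw [show pd s u (x + h) * pd q (pd t u) (x + h) - pd s u x * pd q (pd t u) x
      = (pd s u (x + h) - pd s u x) * pd q (pd t u) (x + h)
        + pd s u x * (pd q (pd t u) (x + h) - pd q (pd t u) x) by ring]
    refine (abs_add_le _ _).trans ?_
    rw [abs_mul, abs_mul]
    have e1 := mul_le_mul (hg1 x h s) (hh (x + h) q t) (abs_nonneg _) (by positivity)
    have e2 := mul_le_mul (hg x s) (hg2 x h q t) (abs_nonneg _) hL0
    linarith
  have r : ∀ y, |pd i u y * pd q (pd j u) y - pd j u y * pd q (pd i u) y| ≤ 2 * (L * L) := by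
    intro y
    refine (abs_sub _ _).trans ?_
    rw [abs_mul, abs_mul]
    have e1 := mul_le_mul (hg y i) (hh y q j) (abs_nonneg _) hL0
    have e2 := mul_le_mul (hg y j) (hh y q i) (abs_nonneg _) hL0
    linarith
  rw [sq_sub_sq, abs_mul]
  refine (mul_le_mul (d := 4 * (L * L) * ‖h‖) ((abs_add_le _ _).trans
    (add_le_add (r (x + h)) (r x))) ?_ (abs_nonneg _) (by positivity)).trans (le_of_eq (by ring))
  rw [show A * B - C * D - (a * b - c * d) = (A * B - a * b) - (C * D - c * d) by ring]
  exact (abs_sub _ _).trans (le_trans (add_le_add (p i j) (p j i)) (le_of_eq (by ring)))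

/-- The averaged defect on transversal slices tends to zero. -/
theorem mono_slice (k : ℕ) {ε : ℝ} (hε : 0 < ε) :
    ∀ᶠ L in atTop, ∀ u : Sp (k + (2 + 1)) → ℝ, Mon u →
      ∫ t in Set.Icc (fun _ : Fin k => -L) (fun _ => L), df u (sh t) ≤ ε * L ^ k := by
  obtain ⟨K, hK0, hK⟩ := df_lip (k + (2 + 1))
  set ρ : ℝ := min 1 (ε / (2 * (7 ^ k * K * ((k : ℝ) + 2) + 1))) with hρ
  have hρ0 : 0 < ρ := lt_min one_pos (by positivity)
  have hρε : 7 ^ k * K * ((k : ℝ) + 2) * ρ ≤ ε / 2 := by
    refine (mul_le_mul_of_nonneg_left (min_le_right _ _) (by positivity)).trans ?_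
    rw [mul_div_assoc', div_le_div_iff₀ (by positivity) two_pos]
    nlinarith
  set V := (volume : Measure (Sp (k + (2 + 1)))).real (Metric.closedBall 0 ρ) with hVdef
  have hV : 0 < V := ENNReal.toReal_pos (Metric.measure_closedBall_pos _ _ hρ0).ne'
    measure_closedBall_lt_top.ne
  set q : ℝ := ((⌈2 * ρ / ρ⌉₊ : ℝ) + 2) ^ k with hq
  have hq0 : 0 ≤ q := by positivity
  set c1 : ℝ := 4 * ((k : ℝ) + 1) with hc1
  have hc10 : 0 < c1 := by positivity
  have hd := mono_defect k hρ0.le
    (show 0 < ε / 2 / (ρ ^ k * q * c1 ^ k / V + 1) by positivity)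
  filter_upwards [(Tendsto.const_mul_atTop hc10 tendsto_id).eventually hd,
    eventually_ge_atTop (1 : ℝ)] with L hdL hL1 u hu
  simp only [id_eq] at hdL
  have hL0 : 0 < L := by linarith
  have hLρ : ρ ≤ L := (min_le_left _ _).trans hL1
  set N : ℕ := ⌈L / ρ⌉₊ + 1 with hN
  have hN1 : L / ρ + 1 ≤ N := by
    rw [hN]; push_cast; linarith [Nat.le_ceil (L / ρ)]
  have hN2 : (N : ℝ) ≤ L / ρ + 2 := by
    rw [hN]; push_cast; linarith [Nat.ceil_lt_add_one (show 0 ≤ L / ρ by positivity)]
  have hNT : (N : ℝ) * ρ ≤ 3 * L := by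
    have := mul_le_mul_of_nonneg_right hN2 hρ0.le
    rw [add_mul, div_mul_cancel₀ _ hρ0.ne'] at this
    linarith
  have hdc : Continuous (df u) := df_continuous hu.1.reg
  have hlip := hK u hu.1 hu.2.1
  set cell : (Fin k → ℤ) → Set (Fin k → ℝ) := fun j =>
    Set.Icc (fun i => (j i : ℝ) * ρ) (fun i => (j i : ℝ) * ρ + ρ) with hcell
  have hcv : ∀ j, (volume : Measure (Fin k → ℝ)).real (cell j) = ρ ^ k := fun j => by
    rw [hcell, Measure.real]
    simp only
    rw [Real.volume_Icc_pi_toReal (fun i => by simp [hρ0.le])]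
    simp
  have hcont : Continuous fun t : Fin k → ℝ => df u (sh t) := hdc.comp sh_continuous
  have hci : ∀ j, Integrable ((cell j).indicator fun t => df u (sh t)) := fun j =>
    (hcont.continuousOn.integrableOn_compact isCompact_Icc).integrable_indicator measurableSet_Icc
  have h1 : ∫ t in Set.Icc (fun _ : Fin k => -L) (fun _ => L), df u (sh t)
      ≤ ∑ j ∈ grid k N, ∫ t in cell j, df u (sh t) := by
    simp only [← integral_indicator measurableSet_Icc, hcell]
    rw [← integral_finsetSum _ fun j _ => hci j]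
    refine integral_mono
      ((hcont.continuousOn.integrableOn_compact isCompact_Icc).integrable_indicator measurableSet_Icc)
      (integrable_finsetSum _ fun j _ => hci j) fun t => ?_
    have h0 : ∀ j ∈ grid k N, 0 ≤ (cell j).indicator (fun t => df u (sh t)) t := fun j _ =>
      Set.indicator_nonneg (fun s _ => df_nonneg u _) t
    by_cases ht : t ∈ Set.Icc (fun _ : Fin k => -L) (fun _ => L)
    · rw [Set.indicator_of_mem ht]
      have hj : (fun i => ⌊t i / ρ⌋) ∈ grid k N := by
        refine Fintype.mem_piFinset.2 fun i => Finset.mem_Icc.2 ⟨?_, ?_⟩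
        · rw [Int.le_floor]
          push_cast
          have := div_le_div_of_nonneg_right (ht.1 i) hρ0.le
          rw [neg_div] at this
          linarith
        · refine Int.floor_le_iff.2 ?_
          push_cast
          have := div_le_div_of_nonneg_right (ht.2 i) hρ0.le
          linarith
      refine le_trans ?_ (Finset.single_le_sum h0 hj)
      rw [Set.indicator_of_mem]
      refine ⟨fun i => ?_, fun i => ?_⟩
      · exact (le_div_iff₀ hρ0).1 (Int.floor_le (t i / ρ))
      · have := (div_lt_iff₀ hρ0).1 (Int.lt_floor_add_one (t i / ρ))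
        linarith
    · rw [Set.indicator_of_notMem ht]
      exact Finset.sum_nonneg h0
  have hb : ∀ j : Fin k → ℤ, Integrable ((Metric.closedBall (0 : Sp (k + (2 + 1))) ρ).indicator
      fun y => df u (y + gp ρ j)) := fun j =>
    ((hdc.comp (continuous_id.add continuous_const)).continuousOn.integrableOn_compact
      (isCompact_closedBall _ _)).integrable_indicator measurableSet_closedBall
  set I : (Fin k → ℤ) → ℝ := fun j => ∫ x, (Metric.closedBall (0 : Sp (k + (2 + 1))) ρ).indicator
    (fun y => df u (y + gp ρ j)) (x - gp ρ j) with hI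
  have h2 : ∀ j, ∫ t in cell j, df u (sh t) ≤ ρ ^ k * (K * ((k : ℝ) + 2) * ρ + I j / V) := by
    intro j
    have hb1 : df u (gp ρ j) ≤ K * ρ + I j / V := by
      have : (df u (gp ρ j) - K * ρ) * V ≤ I j := by
        rw [hI]
        simp only
        rw [integral_sub_right_eq_self (μ := volume)
          ((Metric.closedBall (0 : Sp (k + (2 + 1))) ρ).indicator fun y => df u (y + gp ρ j)) (gp ρ j),
          integral_indicator measurableSet_closedBall, mul_comm, hVdef, ← smul_eq_mul,
          ← setIntegral_const]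
        refine setIntegral_mono_on ((continuous_const : Continuous fun _ : Sp (k + (2 + 1)) =>
          df u (gp ρ j) - K * ρ).continuousOn.integrableOn_compact (isCompact_closedBall _ _))
          ((hdc.comp (continuous_id.add continuous_const)).continuousOn.integrableOn_compact
            (isCompact_closedBall _ _)) measurableSet_closedBall fun y hy => ?_
        rw [mem_closedBall_zero_iff] at hy
        have := (abs_le.1 (hlip (gp ρ j) y)).1
        have h3 := mul_le_mul_of_nonneg_left hy hK0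
        show df u (gp ρ j) - K * ρ ≤ df u (y + gp ρ j)
        rw [add_comm y]
        linarith
      rw [← le_div_iff₀ hV] at this
      linarith
    have hb2 : ∀ t ∈ cell j, df u (sh t) ≤ df u (gp ρ j) + K * (((k : ℝ) + 1) * ρ) := by
      intro t ht
      have hn : ‖sh (m := 2 + 1) t - gp ρ j‖ ≤ ((k : ℝ) + 1) * ρ := by
        refine (sq_le_sq₀ (norm_nonneg _) (by positivity)).1 ?_
        rw [norm_sq_eq]
        have e2 : ssq (sh (m := 2 + 1) t - gp ρ j) = 0 :=
          Finset.sum_eq_zero fun i _ => by simp [sh_nat, gp_nat]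
        have e1 : rsq (sh (m := 2 + 1) t - gp ρ j) ≤ ∑ _i : Fin k, ρ ^ 2 :=
          Finset.sum_le_sum fun i _ => by
            rw [PiLp.sub_apply, sh_cast, gp_cast]
            have a := ht.1 i
            have b := ht.2 i
            simp only at a b
            exact sq_le_sq' (by linarith) (by linarith)
        rw [e2, add_zero]
        simp only [Finset.sum_const, Finset.card_univ, Fintype.card_fin, nsmul_eq_mul] at e1
        nlinarith [show (0 : ℝ) ≤ k from Nat.cast_nonneg k, sq_nonneg ((k : ℝ) * ρ), sq_nonneg ρ,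
          mul_nonneg (Nat.cast_nonneg (α := ℝ) k) (sq_nonneg ρ)]
      have := (abs_le.1 (hlip (gp ρ j) (sh t - gp ρ j))).2
      rw [add_sub_cancel] at this
      nlinarith [mul_le_mul_of_nonneg_left hn hK0]
    refine (setIntegral_mono_on (hcont.continuousOn.integrableOn_compact isCompact_Icc)
      ((continuous_const : Continuous fun _ : Fin k → ℝ => df u (gp ρ j) + K * (((k : ℝ) + 1) * ρ)
        ).continuousOn.integrableOn_compact isCompact_Icc) measurableSet_Icc hb2).trans ?_
    rw [setIntegral_const, smul_eq_mul, hcv]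
    refine mul_le_mul_of_nonneg_left ?_ (by positivity)
    linarith
  have h3 : ∑ j ∈ grid k N, I j ≤ q * (ε / 2 / (ρ ^ k * q * c1 ^ k / V + 1) * (c1 * L) ^ k) := by
    simp only [hI]
    rw [← integral_finsetSum _ fun j _ => (hb j).comp_sub_right (gp ρ j)]
    refine (integral_mono (integrable_finsetSum _ fun j _ => (hb j).comp_sub_right (gp ρ j))
      ((box_integrable hdc (c1 * L) ρ).const_mul q) fun x => ?_).trans ?_
    · refine (grid_overlap hρ0 hρ0.le (df_nonneg u) x).trans (mul_le_mul_of_nonneg_left ?_ hq0)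
      refine Set.indicator_le_indicator_of_subset (box_subset (by positivity) hρ0.le ?_ le_rfl)
        (df_nonneg u) x
      rw [hc1]
      nlinarith [show (0 : ℝ) ≤ k from Nat.cast_nonneg k]
    · rw [integral_const_mul]
      exact mul_le_mul_of_nonneg_left (hdL u hu) hq0
  refine h1.trans ((Finset.sum_le_sum fun j _ => h2 j).trans ?_)
  rw [← Finset.mul_sum, Finset.sum_add_distrib, ← Finset.sum_div, Finset.sum_const, nsmul_eq_mul,
    grid_card, mul_add]
  have hLk : 0 ≤ L ^ k := by positivity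
  have h5 : ρ ^ k * ((2 * (N : ℝ) + 1) ^ k * (K * ((k : ℝ) + 2) * ρ)) ≤ ε / 2 * L ^ k := by
    calc ρ ^ k * ((2 * (N : ℝ) + 1) ^ k * (K * ((k : ℝ) + 2) * ρ))
        = ((2 * (N : ℝ) + 1) * ρ) ^ k * (K * ((k : ℝ) + 2) * ρ) := by rw [mul_pow]; ring
      _ ≤ (7 * L) ^ k * (K * ((k : ℝ) + 2) * ρ) := by
          refine mul_le_mul_of_nonneg_right (pow_le_pow_left₀ (by positivity) ?_ _) (by positivity)
          linarith
      _ = 7 ^ k * K * ((k : ℝ) + 2) * ρ * L ^ k := by rw [mul_pow]; ring
      _ ≤ _ := mul_le_mul_of_nonneg_right hρε hLk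
  have h6 : ρ ^ k * ((∑ j ∈ grid k N, I j) / V) ≤ ε / 2 * L ^ k := by
    refine (mul_le_mul_of_nonneg_left (div_le_div_of_nonneg_right h3 hV.le) (by positivity)).trans ?_
    clear_value c1
    rw [mul_pow]
    have e : ρ ^ k * (q * (ε / 2 / (ρ ^ k * q * c1 ^ k / V + 1) * (c1 ^ k * L ^ k)) / V)
        = (ρ ^ k * q * c1 ^ k / V) / (ρ ^ k * q * c1 ^ k / V + 1) * (ε / 2 * L ^ k) := by ring
    rw [e]
    exact mul_le_of_le_one_left (by positivity) ((div_le_one (by positivity)).2 (by linarith))
  linarith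

theorem pd_close {n : ℕ} {f g : Sp n → ℝ} (hf : Differentiable ℝ f) (hg : Differentiable ℝ g) {C : ℝ}
    (hC0 : 0 ≤ C) (hfC : ∀ x h i, |pd i f (x + h) - pd i f x| ≤ C * ‖h‖)
    (hgC : ∀ x h i, |pd i g (x + h) - pd i g x| ≤ C * ‖h‖) {e t : ℝ} (ht : 0 < t) {y : Sp n}
    (hc : ∀ z, ‖z - y‖ ≤ t → |f z - g z| ≤ e) (i : Fin n) :
    |pd i f y - pd i g y| ≤ 2 * e / t + 2 * n * C * t := by
  have h1 := taylor hf hC0 hfC y (t • ev i)
  have h2 := taylor hg hC0 hgC y (t • ev i)
  have e' : ∀ φ : Sp n → ℝ, ∑ q, (t • ev i : Sp n) q * pd q φ y = t * pd i φ y := fun φ => by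
    simp [ev_apply]
  rw [e', norm_smul, Real.norm_eq_abs, abs_of_pos ht, show ‖ev i‖ = 1 by simp [ev], mul_one] at h1 h2
  have a := abs_le.1 (hc (y + t • ev i) (by simp [norm_smul, abs_of_pos ht, ev]))
  have b := abs_le.1 (hc y (by simpa using ht.le))
  have p := abs_le.1 h1
  have q := abs_le.1 h2
  rw [div_add' _ _ _ ht.ne', le_div_iff₀ ht, ← abs_of_pos ht, ← abs_mul, abs_of_pos ht, abs_le]
  constructor <;> nlinarith

/-- Returns with positive upper Banach density force one-dimensionality. -/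
theorem recurrent {u : Sp (k + (2 + 1)) → ℝ} (hu : Mon u)
    (hrec : ∀ R ε : ℝ, 0 < ε → ∃ c : ℝ, 0 < c ∧ ∀ L0 : ℝ, ∃ L, L0 ≤ L ∧ ∃ a : Fin k → ℝ,
      c * L ^ k ≤ (volume : Measure (Fin k → ℝ)).real
        {t | t ∈ Set.Icc (fun _ => -L) (fun _ => L) ∧
          ∀ x : Sp (k + (2 + 1)), ‖x‖ ≤ R → |u (x + sh (a + t)) - u x| ≤ ε}) :
    Par u := by
  obtain ⟨hsol, hb, hpos⟩ := id hu
  obtain ⟨L, hL0, hL⟩ := reg_bounds_unif (k + (2 + 1))
  suffices hz : ∀ x, df u x = 0 by
    intro x i j q
    have h := hz x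
    simp only [df] at h
    have h1 := (Finset.sum_eq_zero_iff_of_nonneg fun q _ => Finset.sum_nonneg fun i _ =>
      Finset.sum_nonneg fun j _ => sq_nonneg _).1 h q (Finset.mem_univ _)
    have h2 := (Finset.sum_eq_zero_iff_of_nonneg fun i _ => Finset.sum_nonneg fun j _ =>
      sq_nonneg _).1 h1 i (Finset.mem_univ _)
    exact sub_eq_zero.1 (pow_eq_zero_iff two_ne_zero |>.1
      ((Finset.sum_eq_zero_iff_of_nonneg fun j _ => sq_nonneg _).1 h2 j (Finset.mem_univ _)))
  intro x1
  by_contra hne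
  set d := df u x1 with hd
  have hd0 : 0 < d := lt_of_le_of_ne (df_nonneg u x1) (Ne.symm hne)
  set n : ℝ := ((k + (2 + 1) : ℕ) : ℝ) with hn
  have hn0 : 0 ≤ n := Nat.cast_nonneg _
  set η : ℝ := d / (2 * (32 * n ^ 3 * L ^ 3 + 1)) with hη
  have hη0 : 0 < η := by positivity
  set t2 : ℝ := min 1 (η / (4 * n * L + 1)) with ht2
  have ht20 : 0 < t2 := lt_min one_pos (by positivity)
  set e1 : ℝ := min η (η * t2 / 4) with he1
  have he10 : 0 < e1 := lt_min hη0 (by positivity)
  set t1 : ℝ := min 1 (e1 / (4 * n * L + 1)) with ht1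
  have ht10 : 0 < t1 := lt_min one_pos (by positivity)
  have key : ∀ {t η : ℝ}, 0 < η → t ≤ η / (4 * n * L + 1) → 2 * n * L * t ≤ η / 2 := by
    intro t η hη h
    refine (mul_le_mul_of_nonneg_left h (by positivity)).trans ?_
    rw [mul_div_assoc', div_le_div_iff₀ (by positivity) two_pos]
    nlinarith
  obtain ⟨c, hc0, hc⟩ := hrec (‖x1‖ + 2) (e1 * t1 / 4) (by positivity)
  obtain ⟨Le, hLe⟩ := (mono_slice k (show 0 < c * d / 4 by positivity)).exists_forall_of_atTop
  obtain ⟨M, hM, a, ha⟩ := hc (max Le 1)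
  have hM1 : 1 ≤ M := (le_max_right _ _).trans hM
  set S : Set (Fin k → ℝ) := {t | t ∈ Set.Icc (fun _ => -M) (fun _ => M) ∧
          ∀ x : Sp (k + (2 + 1)), ‖x‖ ≤ ‖x1‖ + 2 → |u (x + sh (a + t)) - u x| ≤ e1 * t1 / 4} with hS
  have hlow : ∀ t ∈ S, d / 2 ≤ df u (x1 + sh (a + t)) := by
    intro t ht
    set s := sh (m := 2 + 1) (a + t) with hs
    set f : Sp (k + (2 + 1)) → ℝ := fun y => u (y + s) with hf
    have hfs : IsSol ac f := sol_shift hsol s
    obtain ⟨ga, gb, gc, gd⟩ := hL u hsol hb
    obtain ⟨fa, fb, fc, fd⟩ := hL f hfs fun y => hb _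
    have c1 : ∀ y, ‖y - x1‖ ≤ 1 → ∀ i, |pd i f y - pd i u y| ≤ e1 := by
      intro y hy i
      refine (pd_close (hfs.reg.differentiable two_ne_zero) (hsol.reg.differentiable two_ne_zero)
        hL0 fb gb (e := e1 * t1 / 4) ht10 (fun z hz => ?_) i).trans ?_
      · refine ht.2 z ?_
        have h1 := norm_le_norm_add_norm_sub' z x1
        have h2 : ‖z - x1‖ ≤ ‖z - y‖ + ‖y - x1‖ := norm_sub_le_norm_sub_add_norm_sub _ _ _
        have := min_le_left (1 : ℝ) (e1 / (4 * n * L + 1))
        linarith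
      · rw [← hn, show 2 * (e1 * t1 / 4) / t1 = e1 / 2 by field_simp; ring]
        have := key he10 (min_le_right 1 (e1 / (4 * n * L + 1)))
        linarith
    have c2 : ∀ q i, |pd q (pd i f) x1 - pd q (pd i u) x1| ≤ η := by
      intro q i
      refine (pd_close ((pd_contDiff hfs.reg i).differentiable one_ne_zero)
        ((pd_contDiff hsol.reg i).differentiable one_ne_zero) hL0 (fun x h r => fc x h r i)
        (fun x h r => gc x h r i) (e := e1) ht20 (fun z hz => c1 z ?_ i) q).trans ?_
      · exact hz.trans (min_le_left _ _)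
      · rw [← hn]
        have h1 := key hη0 (min_le_right 1 (η / (4 * n * L + 1)))
        have h2 : 2 * e1 / t2 ≤ η / 2 := by
          rw [div_le_iff₀ ht20]
          have := min_le_right η (η * t2 / 4)
          linarith
        linarith
    have c0 : ∀ i, |pd i f x1 - pd i u x1| ≤ η := fun i =>
      (c1 x1 (by simp) i).trans (min_le_left _ _)
    have hdiff : |df f x1 - df u x1| ≤ n * (n * (n * (16 * L ^ 3 * η))) := by
      simp only [df, ← Finset.sum_sub_distrib]
      refine (Finset.abs_sum_le_sum_abs _ _).trans ((Finset.sum_le_sum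
        (g := fun _ => n * (n * (16 * L ^ 3 * η))) fun q _ => ?_).trans (le_of_eq (by simp [hn])))
      refine (Finset.abs_sum_le_sum_abs _ _).trans ((Finset.sum_le_sum
        (g := fun _ => n * (16 * L ^ 3 * η)) fun i _ => ?_).trans (le_of_eq (by simp [hn])))
      refine (Finset.abs_sum_le_sum_abs _ _).trans ((Finset.sum_le_sum
        (g := fun _ => 16 * L ^ 3 * η) fun j _ => ?_).trans (le_of_eq (by simp [hn])))
      have p : ∀ s r, |pd s f x1 * pd q (pd r f) x1 - pd s u x1 * pd q (pd r u) x1|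
          ≤ 2 * L * η := by
        intro s r
        rw [show pd s f x1 * pd q (pd r f) x1 - pd s u x1 * pd q (pd r u) x1
          = (pd s f x1 - pd s u x1) * pd q (pd r f) x1
            + pd s u x1 * (pd q (pd r f) x1 - pd q (pd r u) x1) by ring]
        refine (abs_add_le _ _).trans ?_
        rw [abs_mul, abs_mul]
        have e1 := mul_le_mul (c0 s) (fd x1 q r) (abs_nonneg _) hη0.le
        have e2 := mul_le_mul (ga x1 s) (c2 q r) (abs_nonneg _) hL0
        linarith
      have r1 : ∀ (φ : Sp (k + (2 + 1)) → ℝ), (∀ i, |pd i φ x1| ≤ L) →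
          (∀ i r, |pd i (pd r φ) x1| ≤ L) →
          |pd i φ x1 * pd q (pd j φ) x1 - pd j φ x1 * pd q (pd i φ) x1| ≤ 2 * (L * L) := by
        intro φ h1 h2
        refine (abs_sub _ _).trans ?_
        rw [abs_mul, abs_mul]
        have e1 := mul_le_mul (h1 i) (h2 q j) (abs_nonneg _) hL0
        have e2 := mul_le_mul (h1 j) (h2 q i) (abs_nonneg _) hL0
        linarith
      rw [sq_sub_sq, abs_mul]
      refine (mul_le_mul (d := 4 * L * η) ((abs_add_le _ _).trans (add_le_add
        (r1 f (fun i => fa _ i) (fun i r => fd _ i r)) (r1 u (fun i => ga _ i) (fun i r => gd _ i r))))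
        ?_ (abs_nonneg _) (by positivity)).trans (le_of_eq (by ring))
      refine le_trans (le_of_eq (congrArg abs ?_)) ((abs_sub _ _).trans
        ((add_le_add (p i j) (p j i)).trans (le_of_eq (by ring))))
      ring
    have e : df f x1 = df u (x1 + s) := df_shift u s x1
    rw [e] at hdiff
    have h2 : n * (n * (n * (16 * L ^ 3 * η))) ≤ d / 2 := by
      rw [hη, show n * (n * (n * (16 * L ^ 3 * (d / (2 * (32 * n ^ 3 * L ^ 3 + 1))))))
        = d * (16 * n ^ 3 * L ^ 3) / (2 * (32 * n ^ 3 * L ^ 3 + 1)) by ring,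
        div_le_div_iff₀ (by positivity) two_pos]
      nlinarith [show 0 ≤ n ^ 3 * L ^ 3 by positivity]
    linarith [(abs_le.1 hdiff).1]
  have hSm : MeasurableSet S := by
    have e : S = Set.Icc (fun _ => -M) (fun _ => M) ∩ ⋂ x : Sp (k + (2 + 1)),
        ⋂ (_ : ‖x‖ ≤ ‖x1‖ + 2), {t | |u (x + sh (a + t)) - u x| ≤ e1 * t1 / 4} := by
      ext t; simp [hS]
    rw [e]
    refine measurableSet_Icc.inter (isClosed_iInter fun x => isClosed_iInter fun _ =>
      isClosed_le ?_ continuous_const).measurableSet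
    exact (((hsol.reg.continuous.comp (continuous_const.add (sh_continuous.comp
      (continuous_const.add continuous_id)))).sub continuous_const).abs)
  have hup := hLe M ((le_max_left _ _).trans hM) _ (hu.shift (x1 + sh a))
  simp only [df_shift] at hup
  have hcont : Continuous fun t : Fin k → ℝ => df u (sh t + (x1 + sh a)) :=
    (df_continuous hsol.reg).comp (sh_continuous.add continuous_const)
  have hI : d / 2 * (volume : Measure (Fin k → ℝ)).real S
      ≤ ∫ t in Set.Icc (fun _ : Fin k => -M) (fun _ => M), df u (sh t + (x1 + sh a)) := by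
    have hsub : S ⊆ Set.Icc (fun _ => -M) (fun _ => M) := fun t ht => ht.1
    refine le_trans ?_ (setIntegral_mono_set (hcont.continuousOn.integrableOn_compact isCompact_Icc)
      (Eventually.of_forall fun t => df_nonneg u _) hsub.eventuallyLE)
    have hfin : (volume : Measure (Fin k → ℝ)) S ≠ ⊤ :=
      (lt_of_le_of_lt (measure_mono hsub) isCompact_Icc.measure_lt_top).ne
    rw [mul_comm, ← smul_eq_mul, ← setIntegral_const]
    refine setIntegral_mono_on (integrableOn_const hfin)
      ((hcont.continuousOn.integrableOn_compact isCompact_Icc).mono_set hsub) hSm fun t ht => ?_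
    rw [show sh t + (x1 + sh a) = x1 + sh (m := 2 + 1) (a + t) by rw [sh_add]; abel]
    exact hlow t ht
  have hMk : 0 < M ^ k := by positivity
  nlinarith [mul_le_mul_of_nonneg_left ha (show 0 ≤ d / 2 by positivity), mul_pos (mul_pos hc0 hd0) hMk]

/-- A monotone solution with parallel gradient is one-dimensional. -/
theorem one_dim {n : ℕ} {u : Sp n → ℝ} (hu : ContDiff ℝ 2 u) {l : Fin n}
    (hpos : ∀ x, 0 < pd l u x) (hP : Par u) :
    ∃ e : Sp n, ‖e‖ = 1 ∧ ∃ h : ℝ → ℝ, ∀ x, u x = h (inner ℝ e x) := by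
  have hud := hu.differentiable two_ne_zero
  have hj : ∀ i, ContDiff ℝ 1 (pd i u) := pd_contDiff hu
  have hconst : ∀ i x, pd i u x = pd i u 0 / pd l u 0 * pd l u x := by
    intro i x
    have dg : Differentiable ℝ fun y => pd i u y * (pd l u y)⁻¹ := fun y =>
      ((hj i).differentiable one_ne_zero y).mul
        (((hj l).differentiable one_ne_zero y).inv (hpos y).ne')
    have hz : ∀ y, fderiv ℝ (fun y => pd i u y * (pd l u y)⁻¹) y = 0 := fun y =>
      ContinuousLinearMap.ext fun w => by
        rw [fderiv_eq_sum]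
        refine Finset.sum_eq_zero fun q _ => mul_eq_zero_of_right _ ?_
        rw [pd_mul (g := pd i u) (h := fun y => (pd l u y)⁻¹) ((hj i).differentiable one_ne_zero)
          (fun z => ((hj l).differentiable one_ne_zero z).inv (hpos z).ne'),
          pd_inv ((hj l).differentiable one_ne_zero) (fun z => (hpos z).ne')]
        have := (hpos y).ne'
        field_simp
        linarith [hP y i l q]
    have h := is_const_of_fderiv_eq_zero dg hz x 0
    simp only [← div_eq_mul_inv] at h
    exact (div_eq_iff (hpos x).ne').1 h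
  refine one_dim_of_gradient hud (E := ∑ i, (pd i u 0 / pd l u 0) • ev i) (φ := pd l u) ?_
    fun x j => ?_
  · intro h
    have := congrArg (fun z : Sp n => z l) h
    simp [ev_apply, (hpos 0).ne'] at this
  · rw [hconst j x, mul_comm]
    simp [ev_apply]

end Vale.Agent.P134A
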